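import Vale.Agent.P198.TL.BricksGeo

/-!
# P198, Stage 2, block TL: existence of bricks
-/

open Metric Set TopologicalSpace Topology P198Q P198.PlanarTop

namespace P198T

/-- a connected set covered by finitely many closed bricks meets an `hadj`-connected set of
bricks -/
theorem rtg_of_preconnected {Z : Type*} [TopologicalSpace Z] {m : ℕ}
    {E : Fin m × Fin m → Set Z} (hcl : ∀ c, IsClosed (E c))
    (hinter : ∀ c c', (E c ∩ E c').Nonempty → c = c' ∨ hadj c c') {W : Set Z}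
    (hW : IsPreconnected W) (hcov : W ⊆ ⋃ c, E c) {c c' : Fin m × Fin m}
    (hc : (E c ∩ W).Nonempty) (hc' : (E c' ∩ W).Nonempty) :
    Relation.ReflTransGen
      (fun p q => hadj p q ∧ (E p ∩ W).Nonempty ∧ (E q ∩ W).Nonempty) c c' := by
  by_contra hcon
  set A : Set (Fin m × Fin m) := {q | Relation.ReflTransGen
    (fun p q => hadj p q ∧ (E p ∩ W).Nonempty ∧ (E q ∩ W).Nonempty) c q} with hA
  have h1 : IsClosed (⋃ q ∈ A, E q) := (toFinite A).isClosed_biUnion fun q _ => hcl q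
  have h2 : IsClosed (⋃ q ∈ Aᶜ, E q) := (toFinite Aᶜ).isClosed_biUnion fun q _ => hcl q
  obtain ⟨z, hz⟩ := hc
  obtain ⟨z', hz'⟩ := hc'
  obtain ⟨w, hwW, hw1, hw2⟩ := isPreconnected_closed_iff.1 hW _ _ h1 h2
    (fun w hw => by
      obtain ⟨q, hq⟩ := mem_iUnion.1 (hcov hw)
      by_cases hqA : q ∈ A
      · exact Or.inl (mem_biUnion hqA hq)
      · exact Or.inr (mem_biUnion (show q ∈ Aᶜ from hqA) hq))
    ⟨z, hz.2, mem_biUnion (show c ∈ A from Relation.ReflTransGen.refl) hz.1⟩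
    ⟨z', hz'.2, mem_biUnion (show c' ∈ Aᶜ from hcon) hz'.1⟩
  simp only [mem_iUnion, exists_prop] at hw1 hw2
  obtain ⟨q, hqA, hq⟩ := hw1
  obtain ⟨q', hqA', hq'⟩ := hw2
  rcases hinter q q' ⟨w, hq, hq'⟩ with rfl | hadj'
  · exact hqA' hqA
  · exact hqA' (Relation.ReflTransGen.tail hqA ⟨hadj', ⟨w, hq, hwW⟩, ⟨w, hq', hwW⟩⟩)

theorem exists_sc_lt {δ : ℝ} (hδ : 0 < δ) : ∃ k₀ : ℕ, ∀ k ≥ k₀, sc k < δ := by
  obtain ⟨k₀, hk₀⟩ := exists_pow_lt_of_lt_one hδ (by norm_num : (1 / 2 : ℝ) < 1)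
  refine ⟨k₀, fun k hk => lt_of_le_of_lt ?_ hk₀⟩
  exact pow_le_pow_of_le_one (by norm_num) (by norm_num) hk

theorem exists_bricks {Z : Type*} [MetricSpace Z] {e : ℝ × ℝ → Z} (he : IsOpenEmbedding e)
    {Λ r₀ : ℝ} (hΛ : 1 ≤ Λ) (hr₀ : 0 < r₀)
    (hllc : ∀ x y : Z, dist x y ≤ r₀ → ∃ K : Set Z, IsCompact K ∧ IsConnected K ∧ x ∈ K ∧
      y ∈ K ∧ K ⊆ closedBall x (Λ * dist x y))
    {N : ℕ → Finset Z} (hN : IsNet N) :
    ∃ ρ > 0, ∃ k₀ : ℕ, ∀ k ≥ k₀, ∃ (m a b : ℕ) (E : Fin m × Fin m → Set Z)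
      (T : Z → Set (Fin m × Fin m)), Bricks e (N k) (sc k) (ρ * sc k) m a b E T := by
  classical
  -- the compact square and its neighbourhood
  have hcpt : IsCompact (e '' (Icc (0 : ℝ) 1 ×ˢ Icc (0 : ℝ) 1)) :=
    (isCompact_Icc.prod isCompact_Icc).image he.continuous
  have hopen : IsOpen (e '' (Ioo (-1 : ℝ) 2 ×ˢ Ioo (-1 : ℝ) 2)) :=
    he.isOpenMap _ (isOpen_Ioo.prod isOpen_Ioo)
  have hsub : e '' (Icc (0 : ℝ) 1 ×ˢ Icc (0 : ℝ) 1) ⊆ e '' (Ioo (-1 : ℝ) 2 ×ˢ Ioo (-1 : ℝ) 2) := by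
    apply image_mono
    rintro ⟨x, y⟩ ⟨⟨h1, h2⟩, ⟨h3, h4⟩⟩
    simp only at h1 h2 h3 h4
    exact ⟨⟨by linarith, by linarith⟩, ⟨by linarith, by linarith⟩⟩
  obtain ⟨δ, hδ, hth⟩ := hcpt.exists_thickening_subset_open hopen hsub
  have hΛ0 : 0 < 1 + Λ := by linarith
  obtain ⟨k₁, hk₁⟩ := exists_sc_lt (δ := δ / (1 + Λ)) (by positivity)
  obtain ⟨k₂, hk₂⟩ := exists_sc_lt hr₀
  refine ⟨1 + Λ, hΛ0, max k₁ k₂, fun k hk => ?_⟩
  have hs1 := hk₁ k (le_trans (le_max_left _ _) hk)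
  have hs2 := hk₂ k (le_trans (le_max_right _ _) hk)
  have hs0 : 0 < sc k := by unfold sc; positivity
  -- uniform continuity
  have huc : UniformContinuousOn e (Icc (-2 : ℝ) 3 ×ˢ Icc (-2 : ℝ) 3) :=
    (isCompact_Icc.prod isCompact_Icc).uniformContinuousOn_of_continuous
      he.continuous.continuousOn
  rw [Metric.uniformContinuousOn_iff] at huc
  obtain ⟨δ', hδ', huc⟩ := huc (sc k) hs0
  obtain ⟨n₀, hn₀⟩ := exists_nat_gt (2 / δ')
  set n := max n₀ 2 with hn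
  have hn2 : 2 ≤ n := le_max_right _ _
  have hnpos : 0 < n := by omega
  have hnR : (0 : ℝ) < n := by exact_mod_cast hnpos
  have hmesh : (2 : ℝ) / n < δ' := by
    rw [div_lt_iff₀ hnR]
    rw [div_lt_iff₀ hδ'] at hn₀
    have : (n₀ : ℝ) ≤ n := by exact_mod_cast le_max_left _ _
    nlinarith
  choose! K hK using hllc
  set E : Fin (3 * n + 1) × Fin (3 * n + 1) → Set Z := fun c => e '' E0 n c with hE
  have hsmall : ∀ c, ∀ x ∈ E c, ∀ y ∈ E c, dist x y ≤ sc k := by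
    rintro c _ ⟨p, hp, rfl⟩ _ ⟨q, hq, rfl⟩
    exact (huc p (E0_subset hnpos c hp) q (E0_subset hnpos c hq)
      (lt_of_le_of_lt (dist_E0 hnpos c hp hq) hmesh)).le
  have hcmp : ∀ c, IsCompact (E c) := fun c => (isCompact_E0 hnpos c).image he.continuous
  have hint : ∀ c c', (E c ∩ E c').Nonempty ↔ c = c' ∨ hadj c c' := by
    intro c c'
    rw [← inter_E0 hnpos, hE]
    simp only
    rw [← image_inter he.injective, image_nonempty]
  -- the set `W v`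
  set W : Z → Set Z := fun v => ⋃ c₀ ∈ {c₀ : Fin (3 * n + 1) × Fin (3 * n + 1) |
    fr (3 * n + 1) (n + 1) (2 * n) c₀ = none ∧ dist (e (ce n c₀)) v ≤ sc k},
    K v (e (ce n c₀)) with hWdef
  have hKs : ∀ v c₀, dist (e (ce n c₀)) v ≤ sc k → dist v (e (ce n c₀)) ≤ r₀ := by
    intro v c₀ h
    rw [dist_comm]
    linarith
  have hWball : ∀ v, ∀ z ∈ W v, dist z v ≤ Λ * sc k := by
    intro v z hz
    simp only [hWdef, mem_iUnion, exists_prop, mem_ofPred_eq] at hz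
    obtain ⟨c₀, ⟨h1, h2⟩, h3⟩ := hz
    have h4 := (hK v (e (ce n c₀)) (hKs v c₀ h2)).2.2.2.2 h3
    rw [mem_closedBall] at h4
    refine h4.trans ?_
    rw [dist_comm] at h2
    gcongr
  have hWpre : ∀ v, IsPreconnected (W v) := by
    intro v
    simp only [hWdef]
    rw [← sUnion_image]
    refine isPreconnected_sUnion v _ ?_ ?_
    · rintro _ ⟨c₀, hc₀, rfl⟩
      exact (hK v (e (ce n c₀)) (hKs v c₀ hc₀.2)).2.2.1
    · rintro _ ⟨c₀, hc₀, rfl⟩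
      exact (hK v (e (ce n c₀)) (hKs v c₀ hc₀.2)).2.1.isPreconnected
  have hWcov : ∀ v, W v ⊆ ⋃ c, E c := by
    intro v z hz
    have hz0 := hWball v z hz
    simp only [hWdef, mem_iUnion, exists_prop, mem_ofPred_eq] at hz
    obtain ⟨c₀, ⟨h1, h2⟩, h3⟩ := hz
    have hmem : e (ce n c₀) ∈ e '' (Icc (0 : ℝ) 1 ×ˢ Icc (0 : ℝ) 1) := by
      refine mem_image_of_mem _ ?_
      have := mid_E0 hnpos c₀ h1 (ce_mem hnpos c₀)
      exact ⟨⟨this.1.1.le, this.1.2.le⟩, ⟨this.2.1.le, this.2.2.le⟩⟩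
    have hz1 : z ∈ thickening δ (e '' (Icc (0 : ℝ) 1 ×ˢ Icc (0 : ℝ) 1)) := by
      rw [mem_thickening_iff]
      refine ⟨_, hmem, ?_⟩
      calc dist z (e (ce n c₀)) ≤ dist z v + dist v (e (ce n c₀)) := dist_triangle _ _ _
        _ ≤ Λ * sc k + sc k := by
            rw [dist_comm] at h2
            gcongr
        _ = (1 + Λ) * sc k := by ring
        _ < δ := by
            rw [lt_div_iff₀ hΛ0] at hs1
            linarith
    obtain ⟨p, hp, rfl⟩ := hth hz1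
    obtain ⟨c, hc⟩ := mem_iUnion.1 (cover_E0 hnpos (show p ∈ Icc (-1 : ℝ) 2 ×ˢ Icc (-1 : ℝ) 2 from
      ⟨⟨hp.1.1.le, hp.1.2.le⟩, ⟨hp.2.1.le, hp.2.2.le⟩⟩))
    exact mem_iUnion.2 ⟨c, mem_image_of_mem _ hc⟩
  refine ⟨3 * n + 1, n + 1, 2 * n, E, fun v => {c | (E c ∩ W v).Nonempty}, ?_⟩
  refine
    { ha := by omega
      hab := by omega
      hbm := by omega
      compact := hcmp
      conn := fun c => (isConnected_E0 hnpos c).image _ he.continuous.continuousOn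
      small := hsmall
      inter := hint
      cover := ?_
      mid := fun c hc => image_mono (mid_E0 hnpos c hc)
      out := fun c i hc => ⟨ce n c, out_E0 hnpos c i hc, mem_image_of_mem _ (ce_mem hnpos c)⟩
      side := fun c c' i hc hc' hadj' => ⟨ce n c', side_E0 hnpos c c' i hc hc' hadj',
        e (ce n c'), mem_image_of_mem _ (ce_mem hnpos c'), by rw [dist_self]; exact hs0.le⟩
      Tconn := fun v x hx y hy => rtg_of_preconnected (fun c => (hcmp c).isClosed)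
        (fun c c' => (hint c c').1) (hWpre v) (hWcov v) hx hy
      Tnear := ?_
      Tcov := ?_ }
  · rintro _ ⟨p, hp, rfl⟩
    obtain ⟨c, hc⟩ := mem_iUnion.1 (cover_E0 hnpos (show p ∈ Icc (-1 : ℝ) 2 ×ˢ Icc (-1 : ℝ) 2 from
      ⟨⟨by linarith [hp.1.1], by linarith [hp.1.2]⟩, ⟨by linarith [hp.2.1], by linarith [hp.2.2]⟩⟩))
    exact mem_iUnion.2 ⟨c, mem_image_of_mem _ hc⟩
  · rintro v c ⟨z, hz, hzW⟩ y hy
    rw [mem_closedBall]
    calc dist y v ≤ dist y z + dist z v := dist_triangle _ _ _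
      _ ≤ sc k + Λ * sc k := add_le_add (hsmall c y hy z hz) (hWball v z hzW)
      _ = (1 + Λ) * sc k := by ring
  · intro c hc
    obtain ⟨v, hv, hd⟩ := hN.cov k (e (ce n c))
    refine ⟨v, hv, e (ce n c), mem_image_of_mem _ (ce_mem hnpos c), ?_⟩
    simp only [hWdef, mem_iUnion, exists_prop, mem_ofPred_eq]
    exact ⟨c, ⟨hc, hd⟩, (hK v (e (ce n c)) (hKs v c hd)).2.2.2.1⟩

end P198T
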