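import Vale.Agent.P198.TL.ToBoard

/-!
# P198, Stage 2, block TL: the board covers the compact part of the square
-/

open Metric Set TopologicalSpace P198Q P198S P198.PlanarTop

namespace P198T

section

variable {Z : Type*} [MetricSpace Z] {e : ℝ × ℝ → Z} {N : Finset Z} {η ρ R : ℝ}
  {m a b : ℕ} {E : Fin m × Fin m → Set Z} {T : Z → Set (Fin m × Fin m)}
  {J : Type} {pt : J → Z} {lab : Fin m × Fin m → J ⊕ Fin 4}

theorem Bricks.aconn (hB : Bricks e N η ρ m a b E T) {K : Set Z} (hK : IsPreconnected K)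
    (hKe : K ⊆ e '' (Icc 0 1 ×ˢ Icc 0 1)) : AConn hadj {c | (E c ∩ K).Nonempty} :=
  aconn_of_preconnected (fun c => (hB.compact c).isClosed) (fun c c' h => (hB.inter c c').1 h) hK
    (hKe.trans hB.cover)

/-- labels along a chain that stays in inner clusters -/
theorem chain_lab {hm : 0 < m} {S : Set (Fin m × Fin m)} {x y : Fin m × Fin m}
    (h : Ch hadj S x y) {i : J} (hx : lab x = Sum.inl i)
    (hS : ∀ c ∈ S, ∃ j, lab c = Sum.inl j) :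
    ∃ j, lab y = Sum.inl j ∧ Relation.ReflTransGen (iadj (boardRect m m hm hm) lab) i j := by
  unfold Ch at h
  induction h with
  | refl => exact ⟨i, hx, .refl⟩
  | @tail u v h1 h2 ih =>
    obtain ⟨j, hj, hij⟩ := ih
    obtain ⟨j', hj'⟩ := hS v h2.2.2
    refine ⟨j', hj', ?_⟩
    by_cases hjj : j = j'
    · rw [← hjj]; exact hij
    · exact hij.tail ⟨hjj, u, v, hj, hj', h2.1⟩

/-- a chain of bricks from an inner cluster to a giant ends next to that giant. -/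
theorem touch {hm : 0 < m} {S : Set (Fin m × Fin m)} {x y : Fin m × Fin m}
    (h : Ch hadj S x y) {i : J} (hx : lab x = Sum.inl i) (g : Fin 4)
    (hS : ∀ c ∈ S, ∀ g', lab c = Sum.inr g' → g' = g) (hy : ∀ j, lab y ≠ Sum.inl j) :
    ∃ j ∈ side (boardRect m m hm hm) lab g,
      Relation.ReflTransGen (iadj (boardRect m m hm hm) lab) i j := by
  obtain ⟨b', a', h1, h2, h3, h4, h5⟩ := h.exit (p := fun c => ∃ j, lab c = Sum.inl j) ⟨i, hx⟩
    (by rintro ⟨j, hj⟩; exact hy j hj)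
  obtain ⟨j, hj, hij⟩ := chain_lab (hm := hm) h1 hx (fun c hc => hc.2)
  obtain ⟨j', hj'⟩ := h2
  have hjj : j' = j := by
    rw [hj'] at hj
    exact Sum.inl_injective hj
  rcases hla : lab a' with j'' | g'
  · exact absurd ⟨j'', hla⟩ h4
  · have := hS a' h3 g' hla
    subst this
    exact ⟨j, ⟨a', b', hla, hj, hadj.symm h5⟩, hij⟩

/-- the cells cover the compact part of the open square. -/
theorem Lbl.cover (he : Function.Injective e) (hec : Continuous e)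
    (hB : Bricks e N η ρ m a b E T)
    (hl : Lbl m a b E R pt lab) (hm : 0 < m) {δ κ : ℝ} (hδ : 0 < δ)
    (hR : R < κ)
    (hq : ∀ g, ∀ p ∈ outS g, ∀ q ∈ Icc δ (1 - δ) ×ˢ Icc δ (1 - δ), κ ≤ dist (e p) (e q))
    (hs1 : ∀ g, g ≠ 1 → ∀ p ∈ outS g, ∀ q ∈ ({(1/2 : ℝ)} ×ˢ Icc (1/2 : ℝ) 1 : Set (ℝ × ℝ)), κ ≤ dist (e p) (e q))
    (hs0 : ∀ g, g ≠ 0 → ∀ p ∈ outS g, ∀ q ∈ ({(1/2 : ℝ)} ×ˢ Icc 0 (1/2 : ℝ) : Set (ℝ × ℝ)), κ ≤ dist (e p) (e q)) :
    e '' (Icc δ (1 - δ) ×ˢ Icc δ (1 - δ)) ⊆ ⋃ i ∈ main (boardRect m m hm hm) lab,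
      cellOf E lab i := by
  set H := boardRect m m hm hm with hH
  set Q : Set (ℝ × ℝ) := Icc δ (1 - δ) ×ˢ Icc δ (1 - δ) with hQ
  rintro _ ⟨q, hqQ, rfl⟩
  have hδ2 : δ ≤ 1 / 2 := by
    have := hqQ.1.1.trans hqQ.1.2
    linarith
  have hcQ : ((1/2 : ℝ), (1/2 : ℝ)) ∈ Q := by
    rw [hQ]
    refine ⟨⟨?_, ?_⟩, ⟨?_, ?_⟩⟩ <;> simp <;> linarith
  have hQI : Q ⊆ Icc 0 1 ×ˢ Icc 0 1 := by
    refine Set.prod_mono ?_ ?_ <;> exact Icc_subset_Icc hδ.le (by linarith)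
  have hQe : e '' Q ⊆ e '' (Icc 0 1 ×ˢ Icc 0 1) := image_mono hQI
  have hQc : IsPreconnected (e '' Q) :=
    ((isPreconnected_Icc.prod isPreconnected_Icc).image e hec.continuousOn)
  -- labels near a set far from the outer region `g`
  have hfar : ∀ (g : Fin 4) (S : Set (ℝ × ℝ)), (∀ p ∈ outS g, ∀ q ∈ S, κ ≤ dist (e p) (e q)) →
      ∀ c, (E c ∩ e '' S).Nonempty → lab c ≠ Sum.inr g := by
    rintro g S hsep c ⟨_, hz, w, hw, rfl⟩ hlc
    obtain ⟨p, hp, hp'⟩ := hl.near_out hB hlc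
    have e1 := hsep p hp w hw
    have e2 := hp' _ hz
    linarith
  have hinQ : ∀ c ∈ {c | (E c ∩ e '' Q).Nonempty}, ∃ j, lab c = Sum.inl j := by
    intro c hc
    rcases hlc : lab c with j | g
    · exact ⟨j, rfl⟩
    · exact absurd hlc (hfar g Q (hq g) c hc)
  -- the centre brick
  obtain ⟨x0, hx0⟩ := mem_iUnion.1 (hB.cover (hQe (mem_image_of_mem e hcQ)))
  have hx0Q : x0 ∈ {c | (E c ∩ e '' Q).Nonempty} := ⟨_, hx0, mem_image_of_mem e hcQ⟩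
  obtain ⟨i0, hi0⟩ := hinQ x0 hx0Q
  -- not inner on the sides
  have hnot : ∀ (p : ℝ × ℝ), p ∉ (Ioo 0 1 ×ˢ Ioo 0 1 : Set (ℝ × ℝ)) → ∀ c, e p ∈ E c →
      ∀ j, lab c ≠ Sum.inl j := by
    intro p hp c hc j hj
    obtain ⟨p', hp', hpp⟩ := hB.mid c (hl.fr_none hj) hc
    rw [he hpp] at hp'
    exact hp hp'
  -- the segment to the top
  have hseg : ∀ (g : Fin 4) (S : Set (ℝ × ℝ)), IsPreconnected S → S ⊆ Icc 0 1 ×ˢ Icc 0 1 →
      ((1/2 : ℝ), (1/2 : ℝ)) ∈ S → (∃ p ∈ S, p ∉ (Ioo 0 1 ×ˢ Ioo 0 1 : Set (ℝ × ℝ))) →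
      (∀ g', g' ≠ g → ∀ p ∈ outS g', ∀ q ∈ S, κ ≤ dist (e p) (e q)) →
      ∃ j ∈ side H lab g, Relation.ReflTransGen (iadj H lab) i0 j := by
    rintro g S hSc hSI hcS ⟨p, hpS, hp⟩ hsep
    have hSe : e '' S ⊆ e '' (Icc 0 1 ×ˢ Icc 0 1) := image_mono hSI
    obtain ⟨y, hy⟩ := mem_iUnion.1 (hB.cover (hSe (mem_image_of_mem e hpS)))
    have hch := hB.aconn (hSc.image e hec.continuousOn) hSe x0 ⟨_, hx0, mem_image_of_mem e hcS⟩ y
      ⟨_, hy, mem_image_of_mem e hpS⟩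
    refine touch (hm := hm) hch hi0 g ?_ (hnot p hp y hy)
    intro c hc g' hg'
    by_contra hne
    exact hfar g' S (hsep g' hne) c hc hg'
  have hpre1 : IsPreconnected ({(1/2 : ℝ)} ×ˢ Icc (1/2 : ℝ) 1 : Set (ℝ × ℝ)) :=
    isPreconnected_singleton.prod isPreconnected_Icc
  have hpre0 : IsPreconnected ({(1/2 : ℝ)} ×ˢ Icc 0 (1/2 : ℝ) : Set (ℝ × ℝ)) :=
    isPreconnected_singleton.prod isPreconnected_Icc
  obtain ⟨j1, hj1, hij1⟩ := hseg 1 _ hpre1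
    (by
      rintro ⟨u, v⟩ ⟨hu, hv⟩
      simp only [mem_singleton_iff] at hu
      subst hu
      refine ⟨⟨by norm_num, by norm_num⟩, ⟨?_, hv.2⟩⟩
      have := hv.1
      simp only at this ⊢
      linarith)
    ⟨rfl, by constructor <;> norm_num⟩
    ⟨((1/2 : ℝ), (1 : ℝ)), ⟨rfl, by constructor <;> norm_num⟩, by
      rintro ⟨-, h⟩
      exact lt_irrefl _ h.2⟩ hs1
  obtain ⟨j0, hj0, hij0⟩ := hseg 0 _ hpre0
    (by
      rintro ⟨u, v⟩ ⟨hu, hv⟩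
      simp only [mem_singleton_iff] at hu
      subst hu
      refine ⟨⟨by norm_num, by norm_num⟩, ⟨hv.1, ?_⟩⟩
      have := hv.2
      simp only at this ⊢
      linarith)
    ⟨rfl, by constructor <;> norm_num⟩
    ⟨((1/2 : ℝ), (0 : ℝ)), ⟨rfl, by constructor <;> norm_num⟩, by
      rintro ⟨-, h⟩
      exact lt_irrefl _ h.1⟩ hs0
  have hi0main : i0 ∈ main H lab :=
    ⟨j0, j1, hj0, hj1, (P198.PlanarTop.rtg_symm iadj_symm hij0).trans hij1,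
      P198.PlanarTop.rtg_symm iadj_symm hij0⟩
  -- the brick of `q`
  obtain ⟨x, hx⟩ := mem_iUnion.1 (hB.cover (hQe (mem_image_of_mem e hqQ)))
  have hch := hB.aconn hQc hQe x0 hx0Q x ⟨_, hx, mem_image_of_mem e hqQ⟩
  obtain ⟨j, hj, hij⟩ := chain_lab (hm := hm) hch hi0 hinQ
  exact mem_biUnion (main_closed hi0main hij) (mem_cellOf.2 ⟨x, hj, hx⟩)

end

end P198T
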