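import Vale.Agent.P198.Q.Defs

/-!
# P198, Stage 2, block TL: linear local connectedness of `Z`

From the `QM` axioms and `t1`: two points at a small distance `r` lie in a continuum contained in a
ball of radius `Λ r`.
-/

open Metric Set TopologicalSpace P198Q

namespace P198T

variable {G Z : Type*} [Group G] [MetricSpace Z] [MulAction G Z]

/-- every element acts as a Lipschitz map. -/
theorem smul_dist_le (q : QM G Z) (g : G) (a b : Z) :
    dist (g • a) (g • b) ≤ q.C / q.s g * dist a b := by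
  have hs := q.s_pos g
  have hC : 0 < q.C := lt_of_lt_of_le one_pos q.one_le_C
  have h1 := q.q1_upper g a b
  have h2 : q.s g * q.s g ≤ max (q.s g) (dist a (q.ζ g)) * max (q.s g) (dist b (q.ζ g)) :=
    mul_le_mul (le_max_left _ _) (le_max_left _ _) hs.le (hs.le.trans (le_max_left _ _))
  have h3 : dist (g • a) (g • b) * (q.s g * q.s g) ≤ q.C * (q.s g * dist a b) :=
    (mul_le_mul_of_nonneg_left h2 dist_nonneg).trans h1
  have h4 : dist (g • a) (g • b) * q.s g ≤ q.C * dist a b := by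
    have : (dist (g • a) (g • b) * q.s g) * q.s g ≤ (q.C * dist a b) * q.s g := by
      calc _ = dist (g • a) (g • b) * (q.s g * q.s g) := by ring
        _ ≤ _ := h3
        _ = _ := by ring
    exact le_of_mul_le_mul_right this hs
  rw [div_mul_eq_mul_div, le_div_iff₀ hs]
  exact h4

theorem continuous_smul_aux (q : QM G Z) (g : G) : Continuous (fun x : Z => g • x) := by
  have hs := q.s_pos g
  have hC : 0 < q.C := lt_of_lt_of_le one_pos q.one_le_C
  refine (LipschitzWith.of_dist_le_mul (K := ⟨q.C / q.s g, (div_pos hC hs).le⟩) ?_).continuous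
  intro a b
  exact smul_dist_le q g a b

/-- linear local connectedness. -/
theorem llc (q : QM G Z)
    (t1 : ∀ ε : ℝ, 0 < ε → ∃ δ : ℝ, 0 < δ ∧ ∀ x y : Z, dist x y < δ →
      ∃ K : Set Z, IsCompact K ∧ IsConnected K ∧ x ∈ K ∧ y ∈ K ∧ diam K < ε) :
    ∃ Λ r₀ : ℝ, 1 ≤ Λ ∧ 0 < r₀ ∧ ∀ x y : Z, dist x y ≤ r₀ →
      ∃ K : Set Z, IsCompact K ∧ IsConnected K ∧ x ∈ K ∧ y ∈ K ∧
        K ⊆ closedBall x (Λ * dist x y) := by
  classical
  set C := q.C with hCdef
  have hC1 : 1 ≤ C := q.one_le_C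
  have hC : 0 < C := lt_of_lt_of_le one_pos hC1
  set c₀ : ℝ := 1 / (2 * C ^ 3) with hc₀
  have hc₀pos : 0 < c₀ := by positivity
  obtain ⟨δ, hδ, hK⟩ := t1 c₀ hc₀pos
  set M : ℝ := max 1 (2 * C ^ 2 / δ) with hM
  have hM1 : 1 ≤ M := le_max_left _ _
  have hMpos : 0 < M := lt_of_lt_of_le one_pos hM1
  have hMδ : C ^ 2 / M < δ := by
    rw [div_lt_iff₀ hMpos]
    have h1 : 2 * C ^ 2 / δ ≤ M := le_max_right _ _
    have h2 : 2 * C ^ 2 ≤ M * δ := by
      rwa [div_le_iff₀ hδ] at h1
    nlinarith [sq_nonneg C, pow_pos hC 2]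
  refine ⟨max 1 (C ^ 2 * M / c₀), 1 / M, le_max_left _ _, by positivity, ?_⟩
  intro x y hxy
  rcases eq_or_lt_of_le (dist_nonneg (x := x) (y := y)) with h0 | hpos
  · have hxy' : x = y := dist_eq_zero.mp h0.symm
    subst hxy'
    exact ⟨{x}, isCompact_singleton, isConnected_singleton, rfl, rfl, by simp⟩
  set r := dist x y with hr
  have hMr : M * r ≤ 1 := by
    have := mul_le_mul_of_nonneg_left hxy hMpos.le
    rwa [mul_one_div_cancel hMpos.ne'] at this
  obtain ⟨g, hg1, hg2, hg3⟩ := q.q4 x (M * r) (by positivity) hMr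
  have hs := q.s_pos g
  have hsr : M * r / C ≤ q.s g := by
    rw [div_le_iff₀ hC]; linarith
  -- distance of the images
  have himg : dist (g • x) (g • y) < δ := by
    refine lt_of_le_of_lt ?_ hMδ
    refine (smul_dist_le q g x y).trans ?_
    rw [div_mul_eq_mul_div, div_le_div_iff₀ hs hMpos]
    calc q.C * dist x y * M = C * (M * r) := by rw [← hCdef, ← hr]; ring
      _ ≤ C * (C * q.s g) := by gcongr
      _ = C ^ 2 * q.s g := by ring
  obtain ⟨K', hK'c, hK'conn, hxK', hyK', hdiam⟩ := hK _ _ himg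
  have hcont := continuous_smul_aux q g⁻¹
  refine ⟨(fun z => g⁻¹ • z) '' K', hK'c.image hcont, hK'conn.image _ hcont.continuousOn,
    ⟨g • x, hxK', inv_smul_smul g x⟩, ⟨g • y, hyK', inv_smul_smul g y⟩, ?_⟩
  rintro _ ⟨z, hz, rfl⟩
  -- the point `g x` is far from the repelling point of `g⁻¹`
  have hmx : max (q.s g) (dist x (q.ζ g)) ≤ C * (M * r) := max_le hg1 hg3
  have hmxpos : 0 < max (q.s g) (dist x (q.ζ g)) := lt_of_lt_of_le hs (le_max_left _ _)
  set m' : Z → ℝ := fun w => max (q.s g) (dist w (q.ζ g⁻¹)) with hm'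
  have hm'x : 2 * c₀ ≤ m' (g • x) := by
    have h := q.q2_lower g x
    have h1 : q.s g ≤ C * (m' (g • x) * (C * (M * r))) := by
      refine h.trans ?_
      have : 0 ≤ m' (g • x) := hs.le.trans (le_max_left _ _)
      gcongr
    have h2 : M * r / C ≤ C * (m' (g • x) * (C * (M * r))) := hsr.trans h1
    have hMrpos : 0 < M * r := by positivity
    have h3 : 1 ≤ C ^ 3 * m' (g • x) := by
      have h4 : M * r ≤ (C ^ 3 * m' (g • x)) * (M * r) := by
        have := (div_le_iff₀ hC).mp h2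
        calc M * r ≤ C * (m' (g • x) * (C * (M * r))) * C := this
          _ = (C ^ 3 * m' (g • x)) * (M * r) := by ring
      nlinarith
    have h5 : 2 * c₀ = 1 / C ^ 3 := by
      rw [hc₀]; field_simp
    rw [h5, div_le_iff₀ (by positivity)]
    linarith
  have hdz : dist (g • x) z ≤ c₀ := by
    have hb : Bornology.IsBounded K' := hK'c.isBounded
    exact (dist_le_diam_of_mem hb hxK' hz).trans hdiam.le
  have hm'z : c₀ ≤ m' z := by
    have h1 : m' (g • x) ≤ m' z + dist (g • x) z := by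
      simp only [hm']
      refine max_le ?_ ?_
      · have := le_max_left (q.s g) (dist z (q.ζ g⁻¹))
        linarith [dist_nonneg (x := g • x) (y := z)]
      · have h2 := dist_triangle (g • x) z (q.ζ g⁻¹)
        have := le_max_right (q.s g) (dist z (q.ζ g⁻¹))
        linarith
    linarith
  have hq := q.q1_upper g⁻¹ (g • x) z
  rw [inv_smul_smul, q.s_inv] at hq
  have hb : dist x (g⁻¹ • z) * (2 * c₀ * c₀) ≤ C * (C * (M * r) * c₀) := by
    calc dist x (g⁻¹ • z) * (2 * c₀ * c₀) ≤ dist x (g⁻¹ • z) * (m' (g • x) * m' z) := by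
          gcongr
      _ ≤ q.C * (q.s g * dist (g • x) z) := hq
      _ ≤ C * (C * (M * r) * c₀) := by
          gcongr
  have hfin : dist x (g⁻¹ • z) ≤ C ^ 2 * M / c₀ * r := by
    have hne : c₀ ≠ 0 := hc₀pos.ne'
    have h1 : dist x (g⁻¹ • z) * (2 * c₀) ≤ C ^ 2 * M * r := by
      have : (dist x (g⁻¹ • z) * (2 * c₀)) * c₀ ≤ (C ^ 2 * M * r) * c₀ := by
        calc _ = dist x (g⁻¹ • z) * (2 * c₀ * c₀) := by ring
          _ ≤ _ := hb
          _ = _ := by ring
      exact le_of_mul_le_mul_right this hc₀pos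
    rw [div_mul_eq_mul_div, le_div_iff₀ hc₀pos]
    have h2 : 0 ≤ dist x (g⁻¹ • z) * c₀ := mul_nonneg dist_nonneg hc₀pos.le
    nlinarith
  rw [mem_closedBall, dist_comm]
  refine hfin.trans ?_
  have : 0 ≤ r := hpos.le
  gcongr
  exact le_max_right _ _

end P198T
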