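import Vale.Agent.P198.TL.Labels
import Vale.Agent.P198.TL.Cov
import Vale.Agent.P198.TL.Bricks
import Vale.Agent.P198.TL.LLC

/-!
# P198, Stage 2, block TL: existence of boards at all small scales
-/

open Metric Set TopologicalSpace P198Q P198S P198.PlanarTop

namespace P198T

theorem exists_mul_sc_lt (C : ℝ) (hC : 0 ≤ C) {κ : ℝ} (hκ : 0 < κ) :
    ∃ k₁ : ℕ, ∀ k, k₁ ≤ k → C * sc k < κ := by
  obtain ⟨k₁, hk₁⟩ := exists_pow_lt_of_lt_one (show 0 < κ / (C + 1) by positivity)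
    (show (1 / 2 : ℝ) < 1 by norm_num)
  refine ⟨k₁, fun k hk => ?_⟩
  have h1 : sc k ≤ sc k₁ := by
    unfold sc
    exact pow_le_pow_of_le_one (by norm_num) (by norm_num) hk
  have h2 : (C + 1) * sc k₁ < κ := by
    rw [lt_div_iff₀ (by positivity)] at hk₁
    unfold sc
    linarith
  have h3 : 0 < sc k := by unfold sc; positivity
  nlinarith

theorem isCompact_outS (g : Fin 4) : IsCompact (outS g) := by
  have h4 : ∀ g : Fin 4, g = 0 ∨ g = 1 ∨ g = 2 ∨ g = 3 := by decide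
  rcases h4 g with rfl | rfl | rfl | rfl <;> exact isCompact_Icc.prod isCompact_Icc

theorem outS_disj {g : Fin 4} {L : Set (ℝ × ℝ)} (h : ∀ q ∈ L, (g = 0 → 0 < q.2) ∧ (g = 1 → q.2 < 1) ∧
    (g = 2 → 0 < q.1) ∧ (g = 3 → q.1 < 1)) : Disjoint (outS g) L := by
  rw [Set.disjoint_left]
  intro p hp hpL
  obtain ⟨h0, h1, h2, h3⟩ := h p hpL
  have h4 : ∀ g : Fin 4, g = 0 ∨ g = 1 ∨ g = 2 ∨ g = 3 := by decide
  rcases h4 g with rfl | rfl | rfl | rfl
  · exact absurd hp.2.2 (not_le.2 (h0 rfl))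
  · exact absurd hp.2.1 (not_le.2 (h1 rfl))
  · exact absurd hp.1.2 (not_le.2 (h2 rfl))
  · exact absurd hp.1.1 (not_le.2 (h3 rfl))

theorem exists_kappa {Z : Type*} [MetricSpace Z] {e : ℝ × ℝ → Z} (hc : Continuous e)
    (hi : Function.Injective e) (L : Fin 4 → Set (ℝ × ℝ)) (hL : ∀ g, IsCompact (L g))
    (h : ∀ g, ∀ q ∈ L g, (g = 0 → 0 < q.2) ∧ (g = 1 → q.2 < 1) ∧
      (g = 2 → 0 < q.1) ∧ (g = 3 → q.1 < 1)) :
    ∃ κ > 0, ∀ g, ∀ p ∈ outS g, ∀ q ∈ L g, κ ≤ dist (e p) (e q) := by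
  have := fun g => exists_sep hc hi (isCompact_outS g) (hL g) (outS_disj (h g))
  choose κ hκ hκ' using this
  refine ⟨min (min (κ 0) (κ 1)) (min (κ 2) (κ 3)), ?_, ?_⟩
  · have := hκ 0
    have := hκ 1
    have := hκ 2
    have := hκ 3
    simp only [gt_iff_lt, lt_min_iff]
    tauto
  · intro g p hp q hq
    have h4 : ∀ g : Fin 4, g = 0 ∨ g = 1 ∨ g = 2 ∨ g = 3 := by decide
    have e1 := hκ' g p hp q hq
    refine le_trans ?_ e1
    rcases h4 g with rfl | rfl | rfl | rfl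
    · exact (min_le_left _ _).trans (min_le_left _ _)
    · exact (min_le_left _ _).trans (min_le_right _ _)
    · exact (min_le_right _ _).trans (min_le_left _ _)
    · exact (min_le_right _ _).trans (min_le_right _ _)

theorem exists_boards_of_bricks {Z : Type*} [MetricSpace Z] {e : ℝ × ℝ → Z}
    (he : Topology.IsOpenEmbedding e) {N : ℕ → Finset Z} (hN : IsNet N) {Df : ℝ → ℝ} {Q : ℕ}
    (hDb : Doubling Z Df Q) {ρ : ℝ} (hρ : 0 < ρ) {k₀ : ℕ}
    (hbr : ∀ k ≥ k₀, ∃ (m a b : ℕ) (E : Fin m × Fin m → Set Z) (T : Z → Set (Fin m × Fin m)),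
      Bricks e (N k) (sc k) (ρ * sc k) m a b E T) :
    ∃ A : ℝ, 0 ≤ A ∧ ∃ k0 : ℕ, ∃ B : ∀ k, k0 ≤ k → P198C.Board e N k A, ∀ δ > 0, ∃ k1 : ℕ,
      ∀ k (h : k0 ≤ k), k1 ≤ k → e '' (Icc δ (1 - δ) ×ˢ Icc δ (1 - δ)) ⊆ ⋃ c, (B k h).cell c := by
  have hec := he.continuous
  have hei := he.injective
  set D : ℕ := ⌊Df (2 * ρ)⌋₊ + 1 with hD
  set C : ℝ := 2 + 2 * D * ρ + ρ with hC
  have hD0 : (0 : ℝ) ≤ D := Nat.cast_nonneg D
  have hC0 : 0 ≤ C := by positivity
  have hsc : ∀ k, 0 < sc k := fun k => by unfold sc; positivity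
  -- separation of opposite sides
  obtain ⟨κ, hκ, hκ'⟩ := exists_kappa hec hei ![outS 1, ∅, outS 3, ∅]
    (by
      intro g
      have h4 : ∀ g : Fin 4, g = 0 ∨ g = 1 ∨ g = 2 ∨ g = 3 := by decide
      rcases h4 g with rfl | rfl | rfl | rfl
      · exact isCompact_outS 1
      · exact isCompact_empty
      · exact isCompact_outS 3
      · exact isCompact_empty)
    (by
      intro g q hq
      have h4 : ∀ g : Fin 4, g = 0 ∨ g = 1 ∨ g = 2 ∨ g = 3 := by decide
      rcases h4 g with rfl | rfl | rfl | rfl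
      · have : (1 : ℝ) ≤ q.2 := hq.2.1
        refine ⟨fun _ => by linarith, fun h => by simp at h, fun h => by simp at h,
          fun h => by simp at h⟩
      · exact absurd hq (Set.notMem_empty _)
      · have : (1 : ℝ) ≤ q.1 := hq.1.1
        refine ⟨fun h => by simp at h, fun h => by simp at h, fun _ => by linarith,
          fun h => by simp at h⟩
      · exact absurd hq (Set.notMem_empty _))
  have h01 : ∀ p ∈ outS 0, ∀ q ∈ outS 1, κ ≤ dist (e p) (e q) := fun p hp q hq => hκ' 0 p hp q hq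
  have h23 : ∀ p ∈ outS 2, ∀ q ∈ outS 3, κ ≤ dist (e p) (e q) := fun p hp q hq => hκ' 2 p hp q hq
  obtain ⟨k₁, hk₁⟩ := exists_mul_sc_lt (2 * C) (by positivity) hκ
  have main : ∀ k, max k₀ k₁ ≤ k → ∃ B : P198C.Board e N k (C + 2), ∀ δ > 0, ∀ κ : ℝ,
      C * sc k < κ →
      (∀ g, ∀ p ∈ outS g, ∀ q ∈ Icc δ (1 - δ) ×ˢ Icc δ (1 - δ), κ ≤ dist (e p) (e q)) →
      (∀ g, g ≠ 1 → ∀ p ∈ outS g, ∀ q ∈ ({(1/2 : ℝ)} ×ˢ Icc (1/2 : ℝ) 1 : Set (ℝ × ℝ)),
        κ ≤ dist (e p) (e q)) →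
      (∀ g, g ≠ 0 → ∀ p ∈ outS g, ∀ q ∈ ({(1/2 : ℝ)} ×ˢ Icc 0 (1/2 : ℝ) : Set (ℝ × ℝ)),
        κ ≤ dist (e p) (e q)) →
      e '' (Icc δ (1 - δ) ×ˢ Icc δ (1 - δ)) ⊆ ⋃ c, B.cell c := by
    intro k hk
    obtain ⟨m, a, b, E, T, hB⟩ := hbr k ((le_max_left _ _).trans hk)
    have hDk : ∀ v, ∀ S' : Finset Z, S' ⊆ N k → (∀ w ∈ S', dist w v ≤ 2 * (ρ * sc k)) →
        S'.card < D := by
      intro v S' hS' h
      have h1 := hDb (2 * ρ) k 0 v S' (by positivity) (fun w hw => by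
          have := h w hw
          linarith) (fun x hx y hy hxy => by
          rw [add_zero]
          exact hN.sep k x (hS' hx) y (hS' hy) hxy)
      rw [Nat.mul_zero, pow_zero, mul_one] at h1
      have h2 := Nat.le_floor h1
      omega
    obtain ⟨J, hJ, pt, lab, hpt, hinj, hl⟩ := exists_lbl hB (hsc k).le
      (by have := hsc k; positivity) D hDk
    have hR : 2 * sc k + 2 * D * (ρ * sc k) + ρ * sc k = C * sc k := by rw [hC]; ring
    rw [hR] at hl
    have hm : 0 < m := by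
      have := hB.ha
      have := hB.hab
      have := hB.hbm
      omega
    have hD' := hl.mergeData hB (κ := κ) (by
      have := hk₁ k ((le_max_right _ _).trans hk)
      linarith) h01 h23 hm
    obtain ⟨B, hBc⟩ := hl.exists_board (A := C + 2) he hB hm hD'
      (mul_nonneg hC0 (hsc k).le) (hsc k).le hpt hinj (by
        have := hsc k
        nlinarith)
    refine ⟨B, fun δ hδ κ' hκ' hq hs1 hs0 => ?_⟩
    rw [hBc]
    exact hl.cover hei hec hB hm hδ hκ' hq hs1 hs0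
  choose B hBB using main
  refine ⟨C + 2, by positivity, max k₀ k₁, B, ?_⟩
  intro δ hδ
  obtain ⟨κq, hκq, hq⟩ := exists_kappa hec hei (fun _ => Icc δ (1 - δ) ×ˢ Icc δ (1 - δ))
    (fun _ => isCompact_Icc.prod isCompact_Icc) (by
      rintro g q ⟨h1, h2⟩
      have := h1.1
      have := h1.2
      have := h2.1
      have := h2.2
      exact ⟨fun _ => by linarith, fun _ => by linarith, fun _ => by linarith,
        fun _ => by linarith⟩)
  obtain ⟨κ1, hκ1, hs1⟩ := exists_kappa hec hei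
    (fun g => if g = 1 then ∅ else ({(1/2 : ℝ)} ×ˢ Icc (1/2 : ℝ) 1 : Set (ℝ × ℝ)))
    (by
      intro g
      split_ifs
      · exact isCompact_empty
      · exact isCompact_singleton.prod isCompact_Icc)
    (by
      intro g q hq
      split_ifs at hq with h
      · exact absurd hq (Set.notMem_empty _)
      · obtain ⟨h1, h2⟩ := hq
        rw [mem_singleton_iff] at h1
        have := h2.1
        exact ⟨fun _ => by linarith, fun h' => absurd h' h, fun _ => by rw [h1]; norm_num,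
          fun _ => by rw [h1]; norm_num⟩)
  obtain ⟨κ0, hκ0, hs0⟩ := exists_kappa hec hei
    (fun g => if g = 0 then ∅ else ({(1/2 : ℝ)} ×ˢ Icc 0 (1/2 : ℝ) : Set (ℝ × ℝ)))
    (by
      intro g
      split_ifs
      · exact isCompact_empty
      · exact isCompact_singleton.prod isCompact_Icc)
    (by
      intro g q hq
      split_ifs at hq with h
      · exact absurd hq (Set.notMem_empty _)
      · obtain ⟨h1, h2⟩ := hq
        rw [mem_singleton_iff] at h1
        have := h2.2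
        exact ⟨fun h' => absurd h' h, fun _ => by linarith, fun _ => by rw [h1]; norm_num,
          fun _ => by rw [h1]; norm_num⟩)
  obtain ⟨k1, hk1⟩ := exists_mul_sc_lt C hC0 (lt_min hκq (lt_min hκ1 hκ0))
  refine ⟨k1, fun k h hk => hBB k h δ hδ _ (hk1 k hk) ?_ ?_ ?_⟩
  · intro g p hp q hq'
    exact (min_le_left _ _).trans (hq g p hp q hq')
  · intro g hg p hp q hq'
    refine ((min_le_right _ _).trans (min_le_left _ _)).trans (hs1 g p hp q ?_)
    simp only [if_neg hg]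
    exact hq'
  · intro g hg p hp q hq'
    refine ((min_le_right _ _).trans (min_le_right _ _)).trans (hs0 g p hp q ?_)
    simp only [if_neg hg]
    exact hq'

/-- **Boards exist at all small scales** in a chart `e` of a quasi-Moebius space: their cells are
connected clusters of size comparable to `2^-k`, one for each of certain net points, and they
exhaust the open square. -/
theorem exists_boards {G Z : Type*} [Group G] [MetricSpace Z] [MulAction G Z] [CompactSpace Z]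
    (q : QM G Z)
    (t1 : ∀ ε : ℝ, 0 < ε → ∃ δ : ℝ, 0 < δ ∧ ∀ x y : Z, dist x y < δ →
      ∃ K : Set Z, IsCompact K ∧ IsConnected K ∧ x ∈ K ∧ y ∈ K ∧ diam K < ε)
    {e : ℝ × ℝ → Z} (he : Topology.IsOpenEmbedding e) {N : ℕ → Finset Z} (hN : IsNet N)
    {Df : ℝ → ℝ} {Q : ℕ} (hDb : Doubling Z Df Q) :
    ∃ A : ℝ, 0 ≤ A ∧ ∃ k0 : ℕ, ∃ B : ∀ k, k0 ≤ k → P198C.Board e N k A, ∀ δ > 0, ∃ k1 : ℕ,
      ∀ k (h : k0 ≤ k), k1 ≤ k → e '' (Icc δ (1 - δ) ×ˢ Icc δ (1 - δ)) ⊆ ⋃ c, (B k h).cell c := by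
  obtain ⟨Λ, r₀, hΛ, hr₀, hllc⟩ := llc q t1
  obtain ⟨ρ, hρ, k₀, hbr⟩ := exists_bricks he hΛ hr₀ hllc hN
  exact exists_boards_of_bricks he hN hDb hρ hbr

end P198T
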