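import Vale.Agent.P198.TL.Defs

/-! # P198, block TL: the geometric half of the bricks (definition) -/

open Metric Set TopologicalSpace P198Q P198S P198.PlanarTop

namespace P198T

/-- the geometric half: scaled hexagons in the plane -/
structure Geo (n m a b : ℕ) (E₀ : Fin m × Fin m → Set (ℝ × ℝ)) : Prop where
  ha : 0 < a
  hab : a < b
  hbm : b < m
  compact : ∀ c, IsCompact (E₀ c)
  conn : ∀ c, IsConnected (E₀ c)
  diam : ∀ c, ∀ x ∈ E₀ c, ∀ y ∈ E₀ c, dist x y ≤ 4 / n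
  inter : ∀ c c', (E₀ c ∩ E₀ c').Nonempty ↔ c = c' ∨ hadj c c'
  cover : Icc (-1) 2 ×ˢ Icc (-1) 2 ⊆ ⋃ c, E₀ c
  bdd : ∀ c, E₀ c ⊆ Icc (-2) 3 ×ˢ Icc (-2) 3
  mid : ∀ c, fr m a b c = none → E₀ c ⊆ Ioo 0 1 ×ˢ Ioo 0 1
  out : ∀ c i, fr m a b c = some i → ∃ p ∈ outS i, p ∈ E₀ c
  side : ∀ c c' i, fr m a b c = none → fr m a b c' = some i → hadj c c' →
    ∃ w ∈ sideS i, w ∈ E₀ c'

end P198T
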