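import Vale.Agent.P198.TL.Defs

/-!
# P198, Stage 2, block TL: geometry of the hexagonal bricks in the square `[-1,2]²`
-/

open Metric Set TopologicalSpace P198.PlanarTop

namespace P198T

/-- the closed hexagon of the brick `c`, mesh `1/n`, in the coordinates of the chart -/
def E0 (n : ℕ) (c : Fin (3 * n + 1) × Fin (3 * n + 1)) : Set (ℝ × ℝ) :=
  {p | dc c ((p.1 + 1) * n) ((p.2 + 1) * n) ≤ 2 / 3}

/-- the centre of the brick `c` -/
noncomputable def ce (n : ℕ) (c : Fin (3 * n + 1) × Fin (3 * n + 1)) : ℝ × ℝ :=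
  (((c.1 : ℕ) : ℝ) / n - 1, ((c.2 : ℕ) : ℝ) / n - 1)

variable {n : ℕ}

theorem mem_E0 {c : Fin (3 * n + 1) × Fin (3 * n + 1)} {p : ℝ × ℝ} : p ∈ E0 n c ↔
    |(p.1 + 1) * n - (c.1 : ℕ)| ≤ 2 / 3 ∧ |(p.2 + 1) * n - (c.2 : ℕ)| ≤ 2 / 3 ∧
      |((p.1 + 1) * n - (c.1 : ℕ)) + ((p.2 + 1) * n - (c.2 : ℕ))| ≤ 2 / 3 := by
  simp only [E0, mem_ofPred_eq, dc, hn_le]

theorem ce_mem (hn' : 0 < n) (c : Fin (3 * n + 1) × Fin (3 * n + 1)) : ce n c ∈ E0 n c := by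
  have h : (n : ℝ) ≠ 0 := by positivity
  have h1 : (((c.1 : ℕ) : ℝ) / n - 1 + 1) * n - (c.1 : ℕ) = 0 := by field_simp; ring
  have h2 : (((c.2 : ℕ) : ℝ) / n - 1 + 1) * n - (c.2 : ℕ) = 0 := by field_simp; ring
  rw [mem_E0]
  simp only [ce]
  rw [h1, h2]
  norm_num

theorem isClosed_E0 (c : Fin (3 * n + 1) × Fin (3 * n + 1)) : IsClosed (E0 n c) := by
  have h : E0 n c = {p : ℝ × ℝ | |(p.1 + 1) * n - (c.1 : ℕ)| ≤ 2 / 3} ∩
      ({p : ℝ × ℝ | |(p.2 + 1) * n - (c.2 : ℕ)| ≤ 2 / 3} ∩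
      {p : ℝ × ℝ | |((p.1 + 1) * n - (c.1 : ℕ)) + ((p.2 + 1) * n - (c.2 : ℕ))| ≤ 2 / 3}) := by
    ext p
    rw [mem_E0]
    rfl
  rw [h]
  refine (isClosed_le (by fun_prop) continuous_const).inter
    ((isClosed_le (by fun_prop) continuous_const).inter
      (isClosed_le (by fun_prop) continuous_const))

theorem coord_bound (hn' : 0 < n) {i : ℕ} {x : ℝ} (h : |(x + 1) * n - (i : ℕ)| ≤ 2 / 3) :
    (i : ℝ) / n - 1 - 2 / 3 / n ≤ x ∧ x ≤ (i : ℝ) / n - 1 + 2 / 3 / n := by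
  have h0 : (0 : ℝ) < n := by positivity
  have h1 := abs_le.1 h
  have e1 : x = ((x + 1) * n) / n - 1 := by field_simp; ring
  constructor
  · rw [e1]
    have : (i : ℝ) / n - 2 / 3 / n ≤ ((x + 1) * n) / n := by
      rw [← sub_div]
      gcongr
      linarith
    linarith
  · rw [e1]
    have : ((x + 1) * n) / n ≤ (i : ℝ) / n + 2 / 3 / n := by
      rw [← add_div]
      gcongr
      linarith
    linarith

theorem E0_bound (hn' : 0 < n) (c : Fin (3 * n + 1) × Fin (3 * n + 1)) {p : ℝ × ℝ}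
    (hp : p ∈ E0 n c) :
    ((c.1 : ℕ) : ℝ) / n - 1 - 2 / 3 / n ≤ p.1 ∧ p.1 ≤ ((c.1 : ℕ) : ℝ) / n - 1 + 2 / 3 / n ∧
    ((c.2 : ℕ) : ℝ) / n - 1 - 2 / 3 / n ≤ p.2 ∧ p.2 ≤ ((c.2 : ℕ) : ℝ) / n - 1 + 2 / 3 / n := by
  rw [mem_E0] at hp
  obtain ⟨h1, h2⟩ := coord_bound hn' hp.1
  obtain ⟨h3, h4⟩ := coord_bound hn' hp.2.1
  exact ⟨h1, h2, h3, h4⟩

theorem frac_bound (hn' : 0 < n) (i : Fin (3 * n + 1)) :
    (0 : ℝ) ≤ ((i : ℕ) : ℝ) / n ∧ ((i : ℕ) : ℝ) / n ≤ 3 := by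
  have h0 : (0 : ℝ) < n := by positivity
  refine ⟨by positivity, ?_⟩
  rw [div_le_iff₀ h0]
  have := i.2
  exact_mod_cast (by omega : (i : ℕ) ≤ 3 * n)

theorem E0_subset (hn' : 0 < n) (c : Fin (3 * n + 1) × Fin (3 * n + 1)) :
    E0 n c ⊆ Icc (-2) 3 ×ˢ Icc (-2) 3 := by
  intro p hp
  obtain ⟨h1, h2, h3, h4⟩ := E0_bound hn' c hp
  have h5 := frac_bound hn' c.1
  have h6 := frac_bound hn' c.2
  have h0 : (1 : ℝ) ≤ n := by exact_mod_cast hn'
  have h7 : (2 / 3 : ℝ) / n ≤ 1 := by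
    rw [div_le_iff₀ (by linarith)]
    linarith
  exact ⟨⟨by linarith, by linarith⟩, ⟨by linarith, by linarith⟩⟩

theorem isCompact_E0 (hn' : 0 < n) (c : Fin (3 * n + 1) × Fin (3 * n + 1)) :
    IsCompact (E0 n c) :=
  (isCompact_Icc.prod isCompact_Icc).of_isClosed_subset (isClosed_E0 c) (E0_subset hn' c)

theorem abs_comb {a b u v : ℝ} (ha : 0 ≤ a) (hb : 0 ≤ b) (hab : a + b = 1) (hu : |u| ≤ 2 / 3)
    (hv : |v| ≤ 2 / 3) : |a * u + b * v| ≤ 2 / 3 := by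
  calc |a * u + b * v| ≤ |a * u| + |b * v| := abs_add_le _ _
    _ = a * |u| + b * |v| := by rw [abs_mul, abs_mul, abs_of_nonneg ha, abs_of_nonneg hb]
    _ ≤ a * (2 / 3) + b * (2 / 3) := by gcongr
    _ = 2 / 3 := by rw [← add_mul, hab, one_mul]

theorem convex_E0 (c : Fin (3 * n + 1) × Fin (3 * n + 1)) : Convex ℝ (E0 n c) := by
  intro p hp q hq a b ha hb hab
  rw [mem_E0] at hp hq ⊢
  have hb' : b = 1 - a := by linarith
  refine ⟨?_, ?_, ?_⟩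
  · have := abs_comb ha hb hab hp.1 hq.1
    convert this using 2
    simp only [Prod.fst_add, Prod.smul_fst, smul_eq_mul]
    rw [hb']
    ring
  · have := abs_comb ha hb hab hp.2.1 hq.2.1
    convert this using 2
    simp only [Prod.snd_add, Prod.smul_snd, smul_eq_mul]
    rw [hb']
    ring
  · have := abs_comb ha hb hab hp.2.2 hq.2.2
    convert this using 2
    simp only [Prod.fst_add, Prod.smul_fst, Prod.snd_add, Prod.smul_snd, smul_eq_mul]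
    rw [hb']
    ring

theorem isConnected_E0 (hn' : 0 < n) (c : Fin (3 * n + 1) × Fin (3 * n + 1)) :
    IsConnected (E0 n c) :=
  ⟨⟨_, ce_mem hn' c⟩, (convex_E0 c).isPreconnected⟩

theorem inter_E0 (hn' : 0 < n) (c c' : Fin (3 * n + 1) × Fin (3 * n + 1)) :
    (E0 n c ∩ E0 n c').Nonempty ↔ c = c' ∨ hadj c c' := by
  constructor
  · rintro ⟨p, hp, hp'⟩
    have h1 : dc c ((p.1 + 1) * n) ((p.2 + 1) * n) ≤ 2 / 3 := hp
    have h2 : dc c' ((p.1 + 1) * n) ((p.2 + 1) * n) ≤ 2 / 3 := hp'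
    exact eq_or_hadj (by linarith) (by linarith)
  · rintro (rfl | h)
    · exact ⟨_, ce_mem hn' c, ce_mem hn' c⟩
    have h0 : (n : ℝ) ≠ 0 := by positivity
    set x1 : ℝ := ((c.1 : ℕ) : ℝ) with hx1
    set x2 : ℝ := ((c.2 : ℕ) : ℝ) with hx2
    set y1 : ℝ := ((c'.1 : ℕ) : ℝ) with hy1
    set y2 : ℝ := ((c'.2 : ℕ) : ℝ) with hy2
    have a1 : |x1 - y1| ≤ 1 := by
      have := h.2.1
      rw [hx1, hy1]
      exact_mod_cast this
    have a2 : |x2 - y2| ≤ 1 := by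
      have := h.2.2.1
      rw [hx2, hy2]
      exact_mod_cast this
    have a3 : |(x1 - y1) + (x2 - y2)| ≤ 1 := by
      have := h.2.2.2
      rw [hx2, hy2, hx1, hy1]
      exact_mod_cast this
    have e1 : ((x1 + y1) / 2 / n - 1 + 1) * n = (x1 + y1) / 2 := by field_simp; ring
    have e2 : ((x2 + y2) / 2 / n - 1 + 1) * n = (x2 + y2) / 2 := by field_simp; ring
    rw [abs_le] at a1 a2 a3
    refine ⟨((x1 + y1) / 2 / n - 1, (x2 + y2) / 2 / n - 1), ?_, ?_⟩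
    · rw [mem_E0]
      simp only
      rw [e1, e2, ← hx1, ← hx2]
      refine ⟨?_, ?_, ?_⟩ <;> rw [abs_le] <;> constructor <;> linarith
    · rw [mem_E0]
      simp only
      rw [e1, e2, ← hy1, ← hy2]
      refine ⟨?_, ?_, ?_⟩ <;> rw [abs_le] <;> constructor <;> linarith

theorem cover_E0 (hn' : 0 < n) : Icc (-1 : ℝ) 2 ×ˢ Icc (-1 : ℝ) 2 ⊆ ⋃ c, E0 n c := by
  rintro ⟨x, y⟩ ⟨⟨hx0, hx1⟩, ⟨hy0, hy1⟩⟩
  simp only at hx0 hx1 hy0 hy1
  have h0 : (0 : ℝ) < n := by positivity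
  have e1 : ((3 * n + 1 : ℕ) : ℝ) - 1 = 3 * n := by push_cast; ring
  obtain ⟨c, hc⟩ := exists_dc_le (m := 3 * n + 1) (n := 3 * n + 1) (x := (x + 1) * n)
    (y := (y + 1) * n) (by nlinarith) (by rw [e1]; nlinarith) (by nlinarith)
    (by rw [e1]; nlinarith)
  exact mem_iUnion.2 ⟨c, hc⟩

theorem dist_E0 (hn' : 0 < n) (c : Fin (3 * n + 1) × Fin (3 * n + 1)) {p q : ℝ × ℝ}
    (hp : p ∈ E0 n c) (hq : q ∈ E0 n c) : dist p q ≤ 2 / n := by
  obtain ⟨h1, h2, h3, h4⟩ := E0_bound hn' c hp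
  obtain ⟨g1, g2, g3, g4⟩ := E0_bound hn' c hq
  have h0 : (0 : ℝ) < n := by positivity
  have e : (2 : ℝ) / n = 2 / 3 / n + 2 / 3 / n + 2 / 3 / n := by ring
  have h7 : (0 : ℝ) < 2 / 3 / n := by positivity
  rw [Prod.dist_eq, Real.dist_eq, Real.dist_eq]
  refine max_le ?_ ?_ <;> rw [abs_le] <;> constructor <;> rw [e] <;> linarith

theorem fr_none {a b : ℕ} {m : ℕ} {c : Fin m × Fin m} (h : fr m a b c = none) :
    a ≤ (c.1 : ℕ) ∧ (c.1 : ℕ) < b ∧ a ≤ (c.2 : ℕ) ∧ (c.2 : ℕ) < b := by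
  unfold fr at h
  split_ifs at h
  omega

theorem mid_E0 (hn' : 0 < n) (c : Fin (3 * n + 1) × Fin (3 * n + 1))
    (h : fr (3 * n + 1) (n + 1) (2 * n) c = none) : E0 n c ⊆ Ioo 0 1 ×ˢ Ioo 0 1 := by
  intro p hp
  obtain ⟨f1, f2, f3, f4⟩ := fr_none h
  obtain ⟨h1, h2, h3, h4⟩ := E0_bound hn' c hp
  have h0 : (0 : ℝ) < n := by positivity
  have k1 : (1 : ℝ) / n ≤ ((c.1 : ℕ) : ℝ) / n - 1 := by
    rw [le_sub_iff_add_le, div_add_one h0.ne', div_le_div_iff_of_pos_right h0]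
    exact_mod_cast (by omega : 1 + n ≤ (c.1 : ℕ))
  have k2 : (1 : ℝ) / n ≤ ((c.2 : ℕ) : ℝ) / n - 1 := by
    rw [le_sub_iff_add_le, div_add_one h0.ne', div_le_div_iff_of_pos_right h0]
    exact_mod_cast (by omega : 1 + n ≤ (c.2 : ℕ))
  have k3 : ((c.1 : ℕ) : ℝ) / n - 1 ≤ 1 - 1 / n := by
    have : ((c.1 : ℕ) : ℝ) / n + 1 / n ≤ 2 := by
      rw [← add_div, div_le_iff₀ h0]
      exact_mod_cast (by omega : (c.1 : ℕ) + 1 ≤ 2 * n)
    linarith
  have k4 : ((c.2 : ℕ) : ℝ) / n - 1 ≤ 1 - 1 / n := by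
    have : ((c.2 : ℕ) : ℝ) / n + 1 / n ≤ 2 := by
      rw [← add_div, div_le_iff₀ h0]
      exact_mod_cast (by omega : (c.2 : ℕ) + 1 ≤ 2 * n)
    linarith
  have k5 : (2 : ℝ) / 3 / n < 1 / n := by
    rw [div_lt_div_iff_of_pos_right h0]
    norm_num
  exact ⟨⟨by linarith, by linarith⟩, ⟨by linarith, by linarith⟩⟩

theorem out_E0 (hn' : 0 < n) (c : Fin (3 * n + 1) × Fin (3 * n + 1)) (i : Fin 4)
    (h : fr (3 * n + 1) (n + 1) (2 * n) c = some i) : ce n c ∈ outS i := by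
  have h0 : (0 : ℝ) < n := by positivity
  obtain ⟨a1, a2⟩ := frac_bound hn' c.1
  obtain ⟨b1, b2⟩ := frac_bound hn' c.2
  have key1 : ∀ j : ℕ, j < n + 1 → (j : ℝ) / n ≤ 1 := by
    intro j hj
    rw [div_le_one h0]
    exact_mod_cast (by omega : j ≤ n)
  have key2 : ∀ j : ℕ, 2 * n ≤ j → 2 ≤ (j : ℝ) / n := by
    intro j hj
    rw [le_div_iff₀ h0]
    exact_mod_cast hj
  unfold fr at h
  split_ifs at h with h1 h2 h3 h4
  · obtain rfl : 0 = i := by simpa using h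
    have := key1 _ h1
    simp only [outS, ce, Matrix.cons_val_zero, mem_prod, mem_Icc]
    refine ⟨⟨by linarith, by linarith⟩, ⟨by linarith, by linarith⟩⟩
  · obtain rfl : 1 = i := by simpa using h
    have := key2 _ h2
    simp only [outS, ce, Matrix.cons_val_one, Matrix.cons_val_zero, mem_prod, mem_Icc]
    refine ⟨⟨by linarith, by linarith⟩, ⟨by linarith, by linarith⟩⟩
  · obtain rfl : 2 = i := by simpa using h
    have := key1 _ h3
    simp only [outS, ce, Matrix.cons_val, mem_prod, mem_Icc]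
    refine ⟨⟨by linarith, by linarith⟩, ⟨by linarith, by linarith⟩⟩
  · obtain rfl : 3 = i := by simpa using h
    have := key2 _ h4
    simp only [outS, ce, Matrix.cons_val, mem_prod, mem_Icc]
    refine ⟨⟨by linarith, by linarith⟩, ⟨by linarith, by linarith⟩⟩

theorem side_E0 (hn' : 0 < n) (c c' : Fin (3 * n + 1) × Fin (3 * n + 1)) (i : Fin 4)
    (hc : fr (3 * n + 1) (n + 1) (2 * n) c = none)
    (h : fr (3 * n + 1) (n + 1) (2 * n) c' = some i) (hadj' : hadj c c') :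
    ce n c' ∈ sideS i := by
  have h0 : (0 : ℝ) < n := by positivity
  obtain ⟨f1, f2, f3, f4⟩ := fr_none hc
  have hd1 := abs_le.1 hadj'.2.1
  have hd2 := abs_le.1 hadj'.2.2.1
  have key1 : ∀ j : ℕ, j = n → (j : ℝ) / n - 1 = 0 := by
    rintro j rfl
    rw [div_self h0.ne', sub_self]
  have key2 : ∀ j : ℕ, j = 2 * n → (j : ℝ) / n - 1 = 1 := by
    rintro j rfl
    push_cast
    field_simp
    ring
  have key3 : ∀ j : ℕ, n ≤ j → j ≤ 2 * n → (0 : ℝ) ≤ (j : ℝ) / n - 1 ∧ (j : ℝ) / n - 1 ≤ 1 := by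
    intro j hj hj'
    constructor
    · rw [le_sub_iff_add_le, zero_add, le_div_iff₀ h0, one_mul]
      exact_mod_cast hj
    · rw [sub_le_iff_le_add, div_le_iff₀ h0]
      have : (j : ℝ) ≤ ((2 * n : ℕ) : ℝ) := by exact_mod_cast hj'
      push_cast at this
      linarith
  unfold fr at h
  split_ifs at h with h1 h2 h3 h4
  · obtain rfl : 0 = i := by simpa using h
    simp only [sideS, ce, Matrix.cons_val_zero, mem_prod, mem_Icc, mem_singleton_iff]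
    exact ⟨key3 _ (by omega) (by omega), key1 _ (by omega)⟩
  · obtain rfl : 1 = i := by simpa using h
    simp only [sideS, ce, Matrix.cons_val_one, Matrix.cons_val_zero, mem_prod, mem_Icc,
      mem_singleton_iff]
    exact ⟨key3 _ (by omega) (by omega), key2 _ (by omega)⟩
  · obtain rfl : 2 = i := by simpa using h
    simp only [sideS, ce, Matrix.cons_val, mem_prod, mem_Icc, mem_singleton_iff]
    exact ⟨key1 _ (by omega), key3 _ (by omega) (by omega)⟩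
  · obtain rfl : 3 = i := by simpa using h
    simp only [sideS, ce, Matrix.cons_val, mem_prod, mem_Icc, mem_singleton_iff]
    exact ⟨key2 _ (by omega), key3 _ (by omega) (by omega)⟩

end P198T
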