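import Vale.Agent.P198.TL.BricksDefs

/-! # P198, block TL: bricks in `Z` from the geometric bricks -/

open Metric Set TopologicalSpace P198Q P198S P198.PlanarTop Topology

namespace P198T

theorem aux_chain {Z ι : Type*} [TopologicalSpace Z] [Finite ι] (E : ι → Set Z)
    (hE : ∀ c, IsClosed (E c)) (adj : ι → ι → Prop)
    (hadj : ∀ c c', (E c ∩ E c').Nonempty → c = c' ∨ adj c c')
    {K : Set Z} (hK : IsPreconnected K) (hcov : K ⊆ ⋃ c, E c) (x y : ι)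
    (hx : (E x ∩ K).Nonempty) (hy : (E y ∩ K).Nonempty) :
    Relation.ReflTransGen
      (fun p q => adj p q ∧ (E p ∩ K).Nonempty ∧ (E q ∩ K).Nonempty) x y := by
  classical
  by_contra hno
  set r : ι → ι → Prop := fun p q => adj p q ∧ (E p ∩ K).Nonempty ∧ (E q ∩ K).Nonempty with hr
  set A : Set ι := {c | (E c ∩ K).Nonempty ∧ Relation.ReflTransGen r x c} with hA
  set B : Set ι := {c | (E c ∩ K).Nonempty ∧ ¬ Relation.ReflTransGen r x c} with hB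
  have h1 : IsClosed (⋃ c ∈ A, E c) := (Set.toFinite A).isClosed_biUnion fun c _ => hE c
  have h2 : IsClosed (⋃ c ∈ B, E c) := (Set.toFinite B).isClosed_biUnion fun c _ => hE c
  have h3 : K ⊆ (⋃ c ∈ A, E c) ∪ (⋃ c ∈ B, E c) := by
    intro z hz
    obtain ⟨c, hc⟩ := mem_iUnion.1 (hcov hz)
    by_cases h : Relation.ReflTransGen r x c
    · exact Or.inl (mem_biUnion (show c ∈ A from ⟨⟨z, hc, hz⟩, h⟩) hc)
    · exact Or.inr (mem_biUnion (show c ∈ B from ⟨⟨z, hc, hz⟩, h⟩) hc)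
  have h4 : (K ∩ ⋃ c ∈ A, E c).Nonempty := by
    obtain ⟨z, hz1, hz2⟩ := hx
    exact ⟨z, hz2, mem_biUnion (show x ∈ A from ⟨⟨z, hz1, hz2⟩, Relation.ReflTransGen.refl⟩) hz1⟩
  have h5 : (K ∩ ⋃ c ∈ B, E c).Nonempty := by
    obtain ⟨z, hz1, hz2⟩ := hy
    exact ⟨z, hz2, mem_biUnion (show y ∈ B from ⟨⟨z, hz1, hz2⟩, hno⟩) hz1⟩
  obtain ⟨z, hz, hzA, hzB⟩ := isPreconnected_closed_iff.1 hK _ _ h1 h2 h3 h4 h5
  rw [mem_iUnion₂] at hzA hzB
  obtain ⟨c, hcA, hzc⟩ := hzA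
  obtain ⟨c', hcB, hzc'⟩ := hzB
  rcases hadj c c' ⟨z, hzc, hzc'⟩ with h | h
  · subst h
    exact hcB.2 hcA.2
  · exact hcB.2 (hcA.2.tail ⟨h, hcA.1, hcB.1⟩)

/-- the bricks of `Z` near the square, from the geometric bricks -/
theorem exists_bricks_of
    (hgeo : ∀ n : ℕ, 2 ≤ n → ∃ (m a b : ℕ) (E₀ : Fin m × Fin m → Set (ℝ × ℝ)), Geo n m a b E₀)
    {Z : Type*} [MetricSpace Z] {e : ℝ × ℝ → Z} (he : IsOpenEmbedding e) {Λ r₀ : ℝ}
    (hΛ : 1 ≤ Λ) (hr₀ : 0 < r₀)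
    (hllc : ∀ x y : Z, dist x y ≤ r₀ → ∃ K : Set Z, IsCompact K ∧ IsConnected K ∧ x ∈ K ∧ y ∈ K ∧
      K ⊆ closedBall x (Λ * dist x y))
    {N : ℕ → Finset Z} (hN : IsNet N) :
    ∃ ρ > 0, ∃ k₀ : ℕ, ∀ k ≥ k₀, ∃ (m a b : ℕ) (E : Fin m × Fin m → Set Z)
      (T : Z → Set (Fin m × Fin m)), Bricks e (N k) (sc k) (ρ * sc k) m a b E T := by
  have hcs : IsCompact (e '' (Icc (0 : ℝ) 1 ×ˢ Icc (0 : ℝ) 1)) :=
    (isCompact_Icc.prod isCompact_Icc).image he.continuous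
  have hop : IsOpen (e '' (Ioo (-1 : ℝ) 2 ×ˢ Ioo (-1 : ℝ) 2)) :=
    he.isOpenMap _ (isOpen_Ioo.prod isOpen_Ioo)
  have hsub : e '' (Icc (0 : ℝ) 1 ×ˢ Icc (0 : ℝ) 1) ⊆ e '' (Ioo (-1 : ℝ) 2 ×ˢ Ioo (-1 : ℝ) 2) := by
    refine image_mono (Set.prod_mono ?_ ?_) <;>
    · intro x hx
      exact ⟨by linarith [hx.1], by linarith [hx.2]⟩
  obtain ⟨δ, hδ, hδs⟩ := hcs.exists_thickening_subset_open hop hsub
  have hΛ1 : 0 < Λ + 1 := by linarith
  obtain ⟨k₀, hk₀⟩ : ∃ k₀ : ℕ, (1 / 2 : ℝ) ^ k₀ < min r₀ (δ / (Λ + 1)) :=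
    exists_pow_lt_of_lt_one (lt_min hr₀ (div_pos hδ hΛ1)) (by norm_num)
  refine ⟨Λ + 1, hΛ1, k₀, fun k hk => ?_⟩
  have hsc0 : 0 < sc k := by unfold sc; positivity
  have hsck : sc k < min r₀ (δ / (Λ + 1)) := by
    refine lt_of_le_of_lt ?_ hk₀
    unfold sc
    exact pow_le_pow_of_le_one (by norm_num) (by norm_num) hk
  have hscr : sc k < r₀ := hsck.trans_le (min_le_left _ _)
  have hscδ : (Λ + 1) * sc k < δ := by
    have := hsck.trans_le (min_le_right _ _)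
    rw [lt_div_iff₀ hΛ1] at this
    linarith
  -- uniform continuity
  have huc : UniformContinuousOn e (Icc (-2 : ℝ) 3 ×ˢ Icc (-2 : ℝ) 3) :=
    (isCompact_Icc.prod isCompact_Icc).uniformContinuousOn_of_continuous he.continuous.continuousOn
  obtain ⟨δ', hδ', hδ's⟩ := Metric.uniformContinuousOn_iff.1 huc (sc k) hsc0
  obtain ⟨n, hn⟩ : ∃ n : ℕ, 4 / δ' < n := exists_nat_gt _
  obtain ⟨m, a, b, E₀, h⟩ := hgeo (max n 2) (le_max_right _ _)
  have hn' : (4 : ℝ) / (max n 2 : ℕ) < δ' := by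
    have h1 : (n : ℝ) ≤ (max n 2 : ℕ) := by exact_mod_cast le_max_left n 2
    have h2 : (0 : ℝ) < (max n 2 : ℕ) := by
      have : 0 < max n 2 := lt_of_lt_of_le two_pos (le_max_right _ _)
      exact_mod_cast this
    rw [div_lt_iff₀ h2]
    rw [div_lt_iff₀ hδ'] at hn
    nlinarith
  have hsmall : ∀ c, ∀ x ∈ e '' (E₀ c), ∀ y ∈ e '' (E₀ c), dist x y ≤ sc k := by
    rintro c _ ⟨x, hx, rfl⟩ _ ⟨y, hy, rfl⟩
    exact (hδ's x (h.bdd c hx) y (h.bdd c hy) ((h.diam c x hx y hy).trans_lt hn')).le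
  have hinter : ∀ c c', (e '' (E₀ c) ∩ e '' (E₀ c')).Nonempty ↔ c = c' ∨ hadj c c' := by
    intro c c'
    rw [← image_inter he.injective, image_nonempty]
    exact h.inter c c'
  -- the continua
  set KK : Z → Set Z := fun v => ⋃₀ {K : Set Z | IsConnected K ∧ v ∈ K ∧
    K ⊆ closedBall v (Λ * sc k) ∧ ∃ x ∈ K, dist v x ≤ sc k ∧
      x ∈ e '' (Ioo (0 : ℝ) 1 ×ˢ Ioo (0 : ℝ) 1)} with hKK
  have hKconn : ∀ v, IsPreconnected (KK v) := fun v =>
    isPreconnected_sUnion v _ (fun s hs => hs.2.1) (fun s hs => hs.1.isPreconnected)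
  have hKball : ∀ v, KK v ⊆ closedBall v (Λ * sc k) := by
    rintro v y ⟨K, hK, hy⟩
    exact hK.2.2.1 hy
  have hKcov : ∀ v, KK v ⊆ ⋃ c, e '' (E₀ c) := by
    rintro v y ⟨K, ⟨-, -, hKb, x, -, hx2, hx3⟩, hy⟩
    have h1 : dist y v ≤ Λ * sc k := hKb hy
    have h2 : y ∈ thickening δ (e '' (Icc (0 : ℝ) 1 ×ˢ Icc (0 : ℝ) 1)) := by
      rw [mem_thickening_iff]
      refine ⟨x, ?_, ?_⟩
      · refine image_mono (Set.prod_mono ?_ ?_) hx3 <;> exact Ioo_subset_Icc_self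
      · have := dist_triangle y v x
        linarith
    obtain ⟨p, hp, rfl⟩ := hδs h2
    have h3 : p ∈ Icc (-1 : ℝ) 2 ×ˢ Icc (-1 : ℝ) 2 :=
      Set.prod_mono Ioo_subset_Icc_self Ioo_subset_Icc_self hp
    obtain ⟨c, hc⟩ := mem_iUnion.1 (h.cover h3)
    exact mem_iUnion.2 ⟨c, mem_image_of_mem _ hc⟩
  refine ⟨m, a, b, fun c => e '' (E₀ c), fun v => {c | (e '' (E₀ c) ∩ KK v).Nonempty},
    { ha := h.ha
      hab := h.hab
      hbm := h.hbm
      compact := fun c => (h.compact c).image he.continuous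
      conn := fun c => (h.conn c).image _ he.continuous.continuousOn
      small := hsmall
      inter := hinter
      cover := ?_
      mid := fun c hc => image_mono (h.mid c hc)
      out := fun c i hc => ?_
      side := fun c c' i hc hc' hcc => ?_
      Tconn := fun v x hx y hy => ?_
      Tnear := fun v c hc => ?_
      Tcov := fun c hc => ?_ }⟩
  · rintro _ ⟨p, hp, rfl⟩
    have h3 : p ∈ Icc (-1 : ℝ) 2 ×ˢ Icc (-1 : ℝ) 2 :=
      Set.prod_mono (Icc_subset_Icc (by norm_num) (by norm_num))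
        (Icc_subset_Icc (by norm_num) (by norm_num)) hp
    obtain ⟨c, hc⟩ := mem_iUnion.1 (h.cover h3)
    exact mem_iUnion.2 ⟨c, mem_image_of_mem _ hc⟩
  · obtain ⟨p, hp, hpE⟩ := h.out c i hc
    exact ⟨p, hp, mem_image_of_mem _ hpE⟩
  · obtain ⟨w, hw, hwE⟩ := h.side c c' i hc hc' hcc
    exact ⟨w, hw, e w, mem_image_of_mem _ hwE, by rw [dist_self]; exact hsc0.le⟩
  · exact aux_chain (fun c => e '' (E₀ c))
      (fun c => ((h.compact c).image he.continuous).isClosed) hadj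
      (fun c c' hcc => (hinter c c').1 hcc) (hKconn v) (hKcov v) x y hx hy
  · obtain ⟨y, hy1, hy2⟩ := hc
    intro x hx
    have h1 : dist x y ≤ sc k := hsmall c x hx y hy1
    have h2 : dist y v ≤ Λ * sc k := hKball v hy2
    rw [mem_closedBall]
    have := dist_triangle x y v
    linarith
  · obtain ⟨p, hp⟩ := (h.conn c).nonempty
    obtain ⟨v, hv, hpv⟩ := hN.cov k (e p)
    refine ⟨v, hv, e p, mem_image_of_mem _ hp, ?_⟩
    have hvp : dist v (e p) ≤ sc k := by rw [dist_comm]; exact hpv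
    obtain ⟨K, -, hK2, hK3, hK4, hK5⟩ := hllc v (e p) (hvp.trans hscr.le)
    refine ⟨K, ⟨hK2, hK3, hK5.trans (closedBall_subset_closedBall ?_), e p, hK4, hvp,
      mem_image_of_mem _ (h.mid c hc hp)⟩, hK4⟩
    exact mul_le_mul_of_nonneg_left hvp (by linarith)

end P198T
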