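import Mathlib

/-!
# P198, Stage 2, block TL: the cluster lemma

Bricks `B` with a symmetric adjacency; `fr` marks the bricks of the frame (giants, initial clusters),
`T v` are adjacency-connected sets of bricks of size `≤ r`, coloured with `D` colours such that sets
of the same colour are disjoint.  Then the bricks can be partitioned into adjacency-connected
clusters, each of them grown from one of the `T v` or from one of the giants by at most `D` steps.
-/

open Set

namespace P198T

section Chains

variable {B : Type*} {adj : B → B → Prop}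

/-- chains inside `S` -/
def Ch (adj : B → B → Prop) (S : Set B) (x y : B) : Prop :=
  Relation.ReflTransGen (fun p q => adj p q ∧ p ∈ S ∧ q ∈ S) x y

/-- `S` is adjacency-connected -/
def AConn (adj : B → B → Prop) (S : Set B) : Prop := ∀ x ∈ S, ∀ y ∈ S, Ch adj S x y

theorem Ch.mono {S S' : Set B} (h : S ⊆ S') {x y : B} (hc : Ch adj S x y) : Ch adj S' x y := by
  unfold Ch at *
  induction hc with
  | refl => exact .refl
  | tail _ h1 ih => exact ih.tail ⟨h1.1, h h1.2.1, h h1.2.2⟩

theorem Ch.symm (hs : ∀ a b, adj a b → adj b a) {S : Set B} {x y : B} (hc : Ch adj S x y) :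
    Ch adj S y x := by
  unfold Ch at *
  induction hc with
  | refl => exact .refl
  | tail _ h1 ih => exact Relation.ReflTransGen.head ⟨hs _ _ h1.1, h1.2.2, h1.2.1⟩ ih

theorem Ch.trans {S : Set B} {x y z : B} (h : Ch adj S x y) (h' : Ch adj S y z) : Ch adj S x z :=
  Relation.ReflTransGen.trans h h'

theorem Ch.single {S : Set B} {x y : B} (h : adj x y) (hx : x ∈ S) (hy : y ∈ S) : Ch adj S x y :=
  Relation.ReflTransGen.single ⟨h, hx, hy⟩

/-- the component of `b` in `S` -/
def comp (adj : B → B → Prop) (S : Set B) (b : B) : Set B := {y | Ch adj S b y}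

theorem mem_comp_self (S : Set B) (b : B) : b ∈ comp adj S b := Relation.ReflTransGen.refl

theorem comp_subset {S : Set B} {b : B} (hb : b ∈ S) : comp adj S b ⊆ S := by
  intro y hy
  unfold comp Ch at hy
  rcases Relation.ReflTransGen.cases_tail hy with h | ⟨c, -, h⟩
  · rw [h]; exact hb
  · exact h.2.2

theorem ch_comp {S : Set B} {b y : B} (h : Ch adj S b y) : Ch adj (comp adj S b) b y := by
  have key : ∀ y, Ch adj S b y → Ch adj (comp adj S b) b y := by
    intro y h
    unfold Ch at h
    induction h with
    | refl => exact Relation.ReflTransGen.refl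
    | tail h0 h1 ih => exact Relation.ReflTransGen.tail ih ⟨h1.1, h0, h0.tail h1⟩
  exact key y h

theorem aconn_comp (hs : ∀ a b, adj a b → adj b a) (S : Set B) (b : B) :
    AConn adj (comp adj S b) := by
  intro x hx y hy
  exact (Ch.symm hs (ch_comp hx)).trans (ch_comp hy)

theorem comp_eq (hs : ∀ a b, adj a b → adj b a) {S : Set B} {b b' : B} (h : Ch adj S b b') :
    comp adj S b' = comp adj S b := by
  ext y
  exact ⟨fun hy => h.trans hy, fun hy => (h.symm hs).trans hy⟩

/-- first exit from the set `{p}` along a chain -/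
theorem Ch.exit {S : Set B} {p : B → Prop} {x y : B} (h : Ch adj S x y) (hp : p x)
    (hy : ¬ p y) : ∃ b' a, Ch adj (S ∩ {z | p z}) x b' ∧ p b' ∧ a ∈ S ∧ ¬ p a ∧ adj b' a := by
  unfold Ch at h
  induction h using Relation.ReflTransGen.head_induction_on with
  | refl => exact absurd hp hy
  | @head u w h1 h0 ih =>
    by_cases hw : p w
    · obtain ⟨b', a, g1, g2, g3, g4, g5⟩ := ih hw
      exact ⟨b', a, Relation.ReflTransGen.head ⟨h1.1, ⟨h1.2.1, hp⟩, ⟨h1.2.2, hw⟩⟩ g1, g2, g3, g4, g5⟩
    · exact ⟨u, w, Relation.ReflTransGen.refl, hp, h1.2.2, hw, h1.1⟩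

end Chains

section Clusters

variable {B V I : Type*} {adj : B → B → Prop}

/-- roots of the clusters: the sets `T v` and the classes of `fr` -/
def root (T : V → Set B) (fr : B → Option I) : V ⊕ I → Set B
  | Sum.inl v => T v
  | Sum.inr i => {b | fr b = some i}

/-- the state after the colours `< c` have been processed -/
structure Stage (adj : B → B → Prop) (T : V → Set B) (fr : B → Option I) (col : V → ℕ)
    (d : B → B → ℝ) (r : ℝ) (c : ℕ) (f : B → Option (V ⊕ I)) : Prop where
  fr_eq : ∀ b i, fr b = some i → f b = some (Sum.inr i)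
  cov : ∀ b v, col v < c → b ∈ T v → f b ≠ none
  sub : ∀ b v, f b = some (Sum.inl v) → ∀ b' ∈ T v, f b' = some (Sum.inl v)
  reach : ∀ b l, f b = some l → ∃ P : Set B, b ∈ P ∧ AConn adj P ∧ (∀ b' ∈ P, f b' = some l) ∧
    (∀ b' ∈ P, d b b' ≤ c * r) ∧ (P ∩ root T fr l).Nonempty

theorem stage_zero (T : V → Set B) (fr : B → Option I) (col : V → ℕ) (d : B → B → ℝ) (r : ℝ)
    (hd0 : ∀ b, d b b = 0) :
    Stage adj T fr col d r 0 (fun b => (fr b).map Sum.inr) where
  fr_eq := by intro b i h; simp [h]
  cov := by intro b v h; simp at h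
  sub := by
    intro b v h
    simp at h
  reach := by
    intro b l h
    rcases hb : fr b with _ | i
    · simp [hb] at h
    · simp only [hb, Option.map_some, Option.some.injEq] at h
      subst h
      refine ⟨{b}, rfl, ?_, ?_, ?_, ⟨b, rfl, hb⟩⟩
      · rintro x rfl y rfl; exact Relation.ReflTransGen.refl
      · rintro b' rfl; simp [hb]
      · rintro b' rfl; simp [hd0]

open Classical in
theorem stage_succ (hs : ∀ a b, adj a b → adj b a) (T : V → Set B) (fr : B → Option I)
    (col : V → ℕ) (d : B → B → ℝ) (r : ℝ) (hr : 0 ≤ r) (hT : ∀ v, AConn adj (T v))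
    (htri : ∀ x y z, d x z ≤ d x y + d y z) (hTd : ∀ v, ∀ x ∈ T v, ∀ y ∈ T v, d x y ≤ r)
    (hcol : ∀ v w b, col v = col w → b ∈ T v → b ∈ T w → v = w) (c : ℕ)
    (f : B → Option (V ⊕ I)) (hf : Stage adj T fr col d r c f) :
    ∃ f', Stage adj T fr col d r (c + 1) f' := by
  -- candidates for the attaching brick
  let U : V → Set B := fun v => T v ∩ {b | f b = none}
  let A : V → B → Set B := fun v b =>
    {a | a ∈ T v ∧ f a ≠ none ∧ ∃ b', b' ∈ comp adj (U v) b ∧ adj b' a}
  have hA : ∀ v b b', Ch adj (U v) b b' → A v b' = A v b := by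
    intro v b b' h
    simp only [A, comp_eq hs h]
  have hAne : ∀ v b, b ∈ T v → f b = none → (∃ a ∈ T v, f a ≠ none) → (A v b).Nonempty := by
    rintro v b hb hfb ⟨a, ha, hfa⟩
    obtain ⟨b', a', h1, h2, h3, h4, h5⟩ := (hT v b hb a ha).exit (p := fun z => f z = none) hfb hfa
    exact ⟨a', h3, h4, b', h1, h5⟩
  let g : Set B → V → Option (V ⊕ I) := fun S v =>
    if h : S.Nonempty then f h.some else some (Sum.inl v)
  let newl : V → B → Option (V ⊕ I) := fun v b => g (A v b) v
  have hnewl : ∀ v b b', Ch adj (U v) b b' → newl v b' = newl v b := by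
    intro v b b' h
    have e := hA v b b' h
    change g (A v b') v = g (A v b) v
    rw [e]
  let f' : B → Option (V ⊕ I) := fun b =>
    if f b ≠ none then f b
    else if h : ∃ v, col v = c ∧ b ∈ T v then newl h.choose b else none
  have hf'old : ∀ b, f b ≠ none → f' b = f b := fun b hb => by simp only [f', if_pos hb]
  have hf'old' : ∀ b l, f b = some l → f' b = some l := fun b l hb => by
    rw [hf'old b (by simp [hb]), hb]
  have hf'new : ∀ b v, f b = none → col v = c → b ∈ T v → f' b = newl v b := by
    intro b v hb hv hbv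
    have hex : ∃ v, col v = c ∧ b ∈ T v := ⟨v, hv, hbv⟩
    have : hex.choose = v :=
      hcol _ _ b (hex.choose_spec.1.trans hv.symm) hex.choose_spec.2 hbv
    simp only [f', hb, ne_eq, not_true_eq_false, if_false, dif_pos hex, this]
  have hf'cases : ∀ b l, f' b = some l → f b = some l ∨
      (f b = none ∧ ∃ v, col v = c ∧ b ∈ T v ∧ newl v b = some l) := by
    intro b l h
    by_cases hb : f b = none
    · right
      refine ⟨hb, ?_⟩
      by_cases hex : ∃ v, col v = c ∧ b ∈ T v
      · obtain ⟨v, hv, hbv⟩ := hex
        exact ⟨v, hv, hbv, by rw [← hf'new b v hb hv hbv]; exact h⟩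
      · simp only [f', hb, ne_eq, not_true_eq_false, if_false, dif_neg hex] at h
        cases h
    · left; rw [← hf'old b hb]; exact h
  refine ⟨f', ?_, ?_, ?_, ?_⟩
  · intro b i h
    exact hf'old' b _ (hf.fr_eq b i h)
  · intro b v hv hb
    by_cases hfb : f b = none
    · by_cases hlt : col v < c
      · exact absurd hfb (hf.cov b v hlt hb)
      · have hvc : col v = c := by omega
        rw [hf'new b v hfb hvc hb]
        by_cases hne : (A v b).Nonempty
        · simp only [newl, g, dif_pos hne]
          exact hne.some_mem.2.1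
        · simp [newl, g, dif_neg hne]
    · rw [hf'old b hfb]; exact hfb
  · intro b v h b' hb'
    rcases hf'cases b _ h with h1 | ⟨h1, w, hw, hbw, h2⟩
    · exact hf'old' _ _ (hf.sub b v h1 b' hb')
    · by_cases hne : (A w b).Nonempty
      · simp only [newl, g, dif_pos hne] at h2
        exact hf'old' _ _ (hf.sub _ v h2 b' hb')
      · simp only [newl, g, dif_neg hne, Option.some.injEq, Sum.inl.injEq] at h2
        subst h2
        have hnone : ∀ a ∈ T w, f a = none := by
          intro a ha
          by_contra hfa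
          exact hne (hAne w b hbw h1 ⟨a, ha, hfa⟩)
        have hne' : ¬ (A w b').Nonempty := by
          rintro ⟨a, ha⟩
          exact ha.2.1 (hnone a ha.1)
        rw [hf'new b' w (hnone b' hb') hw hb']
        simp [newl, g, dif_neg hne']
  · intro b l h
    rcases hf'cases b _ h with h1 | ⟨h1, v, hv, hbv, h2⟩
    · obtain ⟨P, g1, g2, g3, g4, g5⟩ := hf.reach b l h1
      refine ⟨P, g1, g2, fun b' hb' => hf'old' _ _ (g3 b' hb'), fun b' hb' => (g4 b' hb').trans ?_, g5⟩
      push_cast
      nlinarith
    · by_cases hne : (A v b).Nonempty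
      · have h3 : f hne.some = some l := by
          simpa only [newl, g, dif_pos hne] using h2
        obtain ⟨haT, hfa, b₁, hb₁, hadj⟩ := hne.some_mem
        obtain ⟨P, g1, g2, g3, g4, g5⟩ := hf.reach _ l h3
        have hbU : b ∈ U v := ⟨hbv, h1⟩
        have hcU : comp adj (U v) b ⊆ U v := comp_subset hbU
        have hcf : ∀ x ∈ comp adj (U v) b, f' x = some l := by
          intro x hx
          rw [hf'new x v (hcU hx).2 hv (hcU hx).1, hnewl v b x hx, h2]
        refine ⟨comp adj (U v) b ∪ P, Or.inl (mem_comp_self _ _), ?_, ?_, ?_, ?_⟩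
        · have hc1 : ∀ x ∈ comp adj (U v) b, Ch adj (comp adj (U v) b ∪ P) x hne.some := by
            intro x hx
            have := (aconn_comp hs (U v) b x hx b₁ hb₁).mono
              (subset_union_left (t := P))
            exact this.tail ⟨hadj, Or.inl hb₁, Or.inr g1⟩
          have hc2 : ∀ x ∈ P, Ch adj (comp adj (U v) b ∪ P) x hne.some := by
            intro x hx
            exact (g2 x hx _ g1).mono subset_union_right
          have hc : ∀ x ∈ comp adj (U v) b ∪ P, Ch adj (comp adj (U v) b ∪ P) x hne.some := by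
            rintro x (hx | hx)
            · exact hc1 x hx
            · exact hc2 x hx
          intro x hx y hy
          exact (hc x hx).trans ((hc y hy).symm hs)
        · rintro x (hx | hx)
          · exact hcf x hx
          · exact hf'old' _ _ (g3 x hx)
        · rintro x (hx | hx)
          · have := hTd v b hbv x (hcU hx).1
            push_cast
            have hc0 : (0 : ℝ) ≤ c := Nat.cast_nonneg c
            nlinarith [mul_nonneg hc0 hr]
          · have e1 := hTd v b hbv _ haT
            have e2 := g4 x hx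
            have e3 := htri b hne.some x
            push_cast
            linarith
        · obtain ⟨x, hx1, hx2⟩ := g5
          exact ⟨x, Or.inr hx1, hx2⟩
      · simp only [newl, g, dif_neg hne, Option.some.injEq] at h2
        subst h2
        have hnone : ∀ a ∈ T v, f a = none := by
          intro a ha
          by_contra hfa
          exact hne (hAne v b hbv h1 ⟨a, ha, hfa⟩)
        refine ⟨T v, hbv, hT v, ?_, ?_, ⟨b, hbv, hbv⟩⟩
        · intro x hx
          have hne' : ¬ (A v x).Nonempty := by
            rintro ⟨a, ha⟩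
            exact ha.2.1 (hnone a ha.1)
          rw [hf'new x v (hnone x hx) hv hx]
          simp [newl, g, dif_neg hne']
        · intro x hx
          have := hTd v b hbv x hx
          push_cast
          have hc0 : (0 : ℝ) ≤ c := Nat.cast_nonneg c
          nlinarith [mul_nonneg hc0 hr]

/-- the cluster lemma. -/
theorem exists_clusters (hs : ∀ a b, adj a b → adj b a) (T : V → Set B) (fr : B → Option I)
    (col : V → ℕ) (D : ℕ) (hD : ∀ v, col v < D) (d : B → B → ℝ) (r : ℝ) (hr : 0 ≤ r)
    (hT : ∀ v, AConn adj (T v)) (hfr : ∀ i, AConn adj {b | fr b = some i})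
    (hd0 : ∀ b, d b b = 0) (htri : ∀ x y z, d x z ≤ d x y + d y z)
    (hTd : ∀ v, ∀ x ∈ T v, ∀ y ∈ T v, d x y ≤ r)
    (hcol : ∀ v w b, col v = col w → b ∈ T v → b ∈ T w → v = w)
    (hcov : ∀ b, fr b ≠ none ∨ ∃ v, b ∈ T v) :
    ∃ lab : B → V ⊕ I, (∀ b i, fr b = some i → lab b = Sum.inr i) ∧
      (∀ l, AConn adj {b | lab b = l}) ∧
      (∀ b v, lab b = Sum.inl v → ∀ b' ∈ T v, lab b' = Sum.inl v) ∧
      (∀ b, ∃ P : Set B, b ∈ P ∧ AConn adj P ∧ (∀ b' ∈ P, lab b' = lab b) ∧
        (∀ b' ∈ P, d b b' ≤ D * r) ∧ (P ∩ root T fr (lab b)).Nonempty) := by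
  have hstage : ∀ c : ℕ, ∃ f, Stage adj T fr col d r c f := by
    intro c
    induction c with
    | zero => exact ⟨_, stage_zero T fr col d r hd0⟩
    | succ c ih =>
      obtain ⟨f, hf⟩ := ih
      exact stage_succ hs T fr col d r hr hT htri hTd hcol c f hf
  obtain ⟨f, hf⟩ := hstage D
  have htot : ∀ b, ∃ l, f b = some l := by
    intro b
    rcases hcov b with h | ⟨v, hv⟩
    · obtain ⟨i, hi⟩ := Option.ne_none_iff_exists'.mp h
      exact ⟨_, hf.fr_eq b i hi⟩
    · exact Option.ne_none_iff_exists'.mp (hf.cov b v (hD v) hv)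
  choose lab hlab using htot
  have hiff : ∀ b l, f b = some l ↔ lab b = l := by
    intro b l
    rw [hlab b, Option.some.injEq]
  refine ⟨lab, ?_, ?_, ?_, ?_⟩
  · intro b i h
    exact (hiff b _).mp (hf.fr_eq b i h)
  · intro l
    have hroot : AConn adj (root T fr l) := by
      cases l with
      | inl v => exact hT v
      | inr i => exact hfr i
    -- the root of a nonempty class is contained in it
    have hsub : ∀ b, lab b = l → root T fr l ⊆ {b | lab b = l} := by
      intro b hb x hx
      cases l with
      | inl v => exact (hiff x _).mp (hf.sub b v ((hiff b _).mpr hb) x hx)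
      | inr i => exact (hiff x _).mp (hf.fr_eq x i hx)
    have hto : ∀ b, lab b = l → ∃ x ∈ root T fr l, Ch adj {b | lab b = l} b x := by
      intro b hb
      obtain ⟨P, g1, g2, g3, g4, x, hx1, hx2⟩ := hf.reach b l ((hiff b _).mpr hb)
      exact ⟨x, hx2, (g2 b g1 x hx1).mono fun y hy => (hiff y _).mp (g3 y hy)⟩
    intro x hx y hy
    obtain ⟨x', hx1, hx2⟩ := hto x hx
    obtain ⟨y', hy1, hy2⟩ := hto y hy
    exact hx2.trans (((hroot x' hx1 y' hy1).mono (hsub x hx)).trans (hy2.symm hs))
  · intro b v h b' hb'
    exact (hiff b' _).mp (hf.sub b v ((hiff b _).mpr h) b' hb')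
  · intro b
    obtain ⟨P, g1, g2, g3, g4, g5⟩ := hf.reach b (lab b) (hlab b)
    exact ⟨P, g1, g2, fun b' hb' => (hiff b' _).mp (g3 b' hb'), g4, g5⟩

end Clusters

/-- greedy colouring of a finite set with bounded number of neighbours. -/
theorem exists_coloring {V : Type*} [DecidableEq V] (rel : V → V → Prop) (hsymm : ∀ a b, rel a b → rel b a)
    (D : ℕ) (S : Finset V) (hdeg : ∀ v ∈ S, ∀ S' : Finset V, S' ⊆ S → (∀ w ∈ S', w ≠ v ∧ rel v w) →
      S'.card < D) :
    ∃ col : V → ℕ, (∀ v, v ∈ S → col v < D) ∧ ∀ v ∈ S, ∀ w ∈ S, v ≠ w → rel v w → col v ≠ col w := by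
  classical
  induction S using Finset.induction_on with
  | empty => exact ⟨fun _ => 0, by simp, by simp⟩
  | @insert a S ha ih =>
    obtain ⟨col, h1, h2⟩ := ih (fun v hv S' hS' h => hdeg v (Finset.mem_insert_of_mem hv) S'
      (hS'.trans (Finset.subset_insert _ _)) h)
    set Nb : Finset V := S.filter (fun w => rel a w) with hNb
    have hcard : Nb.card < D := by
      refine hdeg a (Finset.mem_insert_self _ _) Nb ?_ ?_
      · exact (Finset.filter_subset _ _).trans (Finset.subset_insert _ _)
      · intro w hw
        rw [hNb, Finset.mem_filter] at hw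
        exact ⟨fun h => ha (h ▸ hw.1), hw.2⟩
    have hex : ∃ c ∈ Finset.range D, c ∉ Nb.image col := by
      by_contra hcon
      push Not at hcon
      have hsub : Finset.range D ⊆ Nb.image col := fun c hc => hcon c hc
      have := (Finset.card_le_card hsub).trans Finset.card_image_le
      rw [Finset.card_range] at this
      omega
    obtain ⟨c, hc, hcn⟩ := hex
    rw [Finset.mem_range] at hc
    refine ⟨Function.update col a c, ?_, ?_⟩
    · intro v hv
      by_cases hva : v = a
      · subst hva; simpa using hc
      · rw [Function.update_of_ne hva]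
        exact h1 v ((Finset.mem_insert.mp hv).resolve_left hva)
    · intro v hv w hw hvw hrel
      by_cases hva : v = a
      · subst hva
        have hwa : w ≠ v := fun h => hvw h.symm
        rw [Function.update_self, Function.update_of_ne hwa]
        intro h
        apply hcn
        rw [Finset.mem_image]
        exact ⟨w, by rw [hNb, Finset.mem_filter]; exact
          ⟨(Finset.mem_insert.mp hw).resolve_left hwa, hrel⟩, h.symm⟩
      · by_cases hwa : w = a
        · subst hwa
          rw [Function.update_self, Function.update_of_ne hva]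
          intro h
          apply hcn
          rw [Finset.mem_image]
          exact ⟨v, by rw [hNb, Finset.mem_filter]; exact
            ⟨(Finset.mem_insert.mp hv).resolve_left hva, hsymm _ _ hrel⟩, h⟩
        · rw [Function.update_of_ne hva, Function.update_of_ne hwa]
          exact h2 v ((Finset.mem_insert.mp hv).resolve_left hva) w
            ((Finset.mem_insert.mp hw).resolve_left hwa) hvw hrel

end P198T
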