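import Vale.Agent.P198.TL.Defs
import Vale.Agent.P198.TL.BricksT

/-! # P198, block TL: the cells of the main component cover the inner squares -/

open Metric Set TopologicalSpace P198Q P198S P198.PlanarTop Topology

namespace P198T

theorem exists_dist_image {Z : Type*} [MetricSpace Z] {e : ℝ × ℝ → Z} (he : IsOpenEmbedding e)
    {K K' : Set (ℝ × ℝ)} (hK : IsCompact K) (hK' : IsCompact K') (hd : Disjoint K K') :
    ∃ η > 0, ∀ p ∈ K, ∀ p' ∈ K', η < dist (e p) (e p') := by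
  have h1 : IsCompact (e '' K) := hK.image he.continuous
  have h2 : IsClosed (e '' K') := (hK'.image he.continuous).isClosed
  have h3 : Disjoint (e '' K) (e '' K') := (disjoint_image_iff he.injective).2 hd
  obtain ⟨r, hr, h⟩ := Metric.exists_pos_forall_lt_edist h1 h2 h3
  refine ⟨r, by exact_mod_cast hr, fun p hp p' hp' => ?_⟩
  have h4 := h (e p) (mem_image_of_mem _ hp) (e p') (mem_image_of_mem _ hp')
  rw [edist_nndist] at h4
  have h5 : r < nndist (e p) (e p') := by exact_mod_cast h4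
  rw [dist_nndist]
  exact_mod_cast h5

theorem isCompact_outS (i : Fin 4) : IsCompact (outS i) := by
  fin_cases i <;> exact isCompact_Icc.prod isCompact_Icc

theorem first_exit {α : Type*} {r : α → α → Prop} {p : α → Prop} {x y : α}
    (h : Relation.ReflTransGen r x y) (hx : p x) (hy : ¬ p y) :
    ∃ b a, Relation.ReflTransGen (fun u v => r u v ∧ p u ∧ p v) x b ∧ p b ∧ ¬ p a ∧ r b a := by
  have key : (Relation.ReflTransGen (fun u v => r u v ∧ p u ∧ p v) x y ∧ p y) ∨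
      ∃ b a, Relation.ReflTransGen (fun u v => r u v ∧ p u ∧ p v) x b ∧ p b ∧ ¬ p a ∧ r b a := by
    clear hy
    induction h with
    | refl => exact Or.inl ⟨.refl, hx⟩
    | @tail b c _ hbc ih =>
      rcases ih with ⟨h1, h2⟩ | h1
      · by_cases hc : p c
        · exact Or.inl ⟨h1.tail ⟨hbc, h2, hc⟩, hc⟩
        · exact Or.inr ⟨b, c, h1, h2, hc, hbc⟩
      · exact Or.inr h1
  rcases key with h1 | h1
  · exact absurd h1.2 hy
  · exact h1

theorem chain_lab {C I : Type*} {H : HexRect C} {lab : C → I ⊕ Fin 4} {P : C → Prop}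
    (hP : ∀ c, P c → ∃ i, lab c = Sum.inl i) {x y : C}
    (h : Relation.ReflTransGen (fun u v => H.adj u v ∧ P u ∧ P v) x y) {i : I}
    (hx : lab x = Sum.inl i) : ∀ j : I, lab y = Sum.inl j →
    Relation.ReflTransGen (iadj H lab) i j := by
  induction h with
  | refl =>
    intro j hj
    rw [hx] at hj
    rw [Sum.inl.inj hj]
  | @tail b c _ hbc ih =>
    intro j hj
    obtain ⟨j', hj'⟩ := hP b hbc.2.1
    have h1 := ih j' hj'
    by_cases hjj : j' = j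
    · rw [← hjj]; exact h1
    · exact h1.tail ⟨hjj, b, c, hj', hj, hbc.1⟩

/-- reaching a giant along a connected set `K` -/
theorem reach_side {Z : Type*} [MetricSpace Z] {e : ℝ × ℝ → Z} {Nk : Finset Z} {η ρ : ℝ}
    {m a b : ℕ} {E : Fin m × Fin m → Set Z} {T : Z → Set (Fin m × Fin m)}
    (hB : Bricks e Nk η ρ m a b E T) {I : Type*} {hm : 0 < m}
    {lab : Fin m × Fin m → I ⊕ Fin 4} {K : Set Z} (hK : IsPreconnected K)
    (hcov : K ⊆ ⋃ c, E c) {c₀ c₁ : Fin m × Fin m} (h0 : (E c₀ ∩ K).Nonempty)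
    (h1 : (E c₁ ∩ K).Nonempty) {j₀ : I} (hj₀ : lab c₀ = Sum.inl j₀) (g : Fin 4)
    (hc₁ : ∃ i, lab c₁ = Sum.inr i)
    (hg : ∀ c i, (E c ∩ K).Nonempty → lab c = Sum.inr i → i = g) :
    ∃ j ∈ side (boardRect m m hm hm) lab g,
      Relation.ReflTransGen (iadj (boardRect m m hm hm) lab) j₀ j := by
  have hch := aux_chain E (fun c => (hB.compact c).isClosed) hadj
    (fun c c' h => (hB.inter c c').1 h) hK hcov c₀ c₁ h0 h1
  obtain ⟨c, c', h2, ⟨j, hj⟩, h4, h5⟩ := first_exit (p := fun c => ∃ j, lab c = Sum.inl j) hch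
    ⟨j₀, hj₀⟩ (by
      rintro ⟨j, hj⟩
      obtain ⟨i, hi⟩ := hc₁
      rw [hi] at hj
      simp at hj)
  obtain ⟨i, hi⟩ : ∃ i, lab c' = Sum.inr i := by
    rcases hcc : lab c' with j | i
    · exact absurd ⟨j, hcc⟩ h4
    · exact ⟨i, rfl⟩
  have hig : i = g := hg c' i h5.2.2 hi
  subst hig
  refine ⟨j, ⟨c', c, hi, hj, (boardRect m m hm hm).symm _ _ h5.1⟩, ?_⟩
  refine chain_lab (P := fun c => ∃ j, lab c = Sum.inl j) (fun c hc => hc) (x := c₀) (y := c) ?_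
    hj₀ j hj
  exact rtg_mono (fun u v h => ⟨h.1.1, h.2.1, h.2.2⟩) h2

theorem cover_main {Z : Type*} [MetricSpace Z] {e : ℝ × ℝ → Z} (he : IsOpenEmbedding e) (A : ℝ)
    {δ : ℝ} (hδ : 0 < δ) :
    ∃ k₁ : ℕ, ∀ k ≥ k₁, ∀ (Nk : Finset Z) (ρ : ℝ) (m a b : ℕ) (E : Fin m × Fin m → Set Z)
      (T : Z → Set (Fin m × Fin m)) (_ : Bricks e Nk (sc k) ρ m a b E T) (I : Type*) (hm : 0 < m)
      (lab : Fin m × Fin m → I ⊕ Fin 4) (_ : MergeData (boardRect m m hm hm) lab)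
      (_ : ∀ c i, fr m a b c = some i → lab c = Sum.inr i)
      (_ : ∀ c i, lab c = Sum.inr i → ∀ x ∈ E c, ∃ p ∈ outS i, dist x (e p) ≤ A * sc k),
      ∀ z ∈ e '' (Icc δ (1 - δ) ×ˢ Icc δ (1 - δ)),
        ∃ i ∈ main (boardRect m m hm hm) lab, ∃ c, lab c = Sum.inl i ∧ z ∈ E c := by
  set δ₁ : ℝ := min δ (1 / 4) with hδ₁
  have hδ1 : 0 < δ₁ := lt_min hδ (by norm_num)
  have hδ2 : δ₁ ≤ 1 / 4 := min_le_right _ _
  have hδ3 : δ₁ ≤ δ := min_le_left _ _
  set R₁ : Set (ℝ × ℝ) := Icc δ₁ (1 - δ₁) ×ˢ Icc δ₁ (1 - δ₁) with hR₁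
  set Lf : Set (ℝ × ℝ) := Icc 0 (1 / 2) ×ˢ {1 / 2} with hLf
  set Rg : Set (ℝ × ℝ) := Icc (1 / 2) 1 ×ˢ {1 / 2} with hRg
  have hR₁c : IsCompact R₁ := isCompact_Icc.prod isCompact_Icc
  have hLfc : IsCompact Lf := isCompact_Icc.prod isCompact_singleton
  have hRgc : IsCompact Rg := isCompact_Icc.prod isCompact_singleton
  -- distances
  have d1 : ∀ i : Fin 4, Disjoint R₁ (outS i) := by
    intro i
    rw [Set.disjoint_left]
    rintro ⟨x, y⟩ ⟨⟨hx1, hx2⟩, ⟨hy1, hy2⟩⟩ hp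
    simp only at hx1 hx2 hy1 hy2
    fin_cases i
    · obtain ⟨-, -, h⟩ : (x, y) ∈ Icc (-2 : ℝ) 3 ×ˢ Icc (-2 : ℝ) 0 := hp
      simp only at h
      linarith
    · obtain ⟨-, h, -⟩ : (x, y) ∈ Icc (-2 : ℝ) 3 ×ˢ Icc (1 : ℝ) 3 := hp
      simp only at h
      linarith
    · obtain ⟨⟨-, h⟩, -⟩ : (x, y) ∈ Icc (-2 : ℝ) 0 ×ˢ Icc (-2 : ℝ) 3 := hp
      simp only at h
      linarith
    · obtain ⟨⟨h, -⟩, -⟩ : (x, y) ∈ Icc (1 : ℝ) 3 ×ˢ Icc (-2 : ℝ) 3 := hp
      simp only at h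
      linarith
  have d2 : ∀ i : Fin 4, i ≠ 2 → Disjoint Lf (outS i) := by
    intro i hi
    rw [Set.disjoint_left]
    rintro ⟨x, y⟩ ⟨⟨hx1, hx2⟩, hy⟩ hp
    simp only [mem_singleton_iff] at hx1 hx2 hy
    fin_cases i
    · obtain ⟨-, -, h⟩ : (x, y) ∈ Icc (-2 : ℝ) 3 ×ˢ Icc (-2 : ℝ) 0 := hp
      simp only at h
      linarith
    · obtain ⟨-, h, -⟩ : (x, y) ∈ Icc (-2 : ℝ) 3 ×ˢ Icc (1 : ℝ) 3 := hp
      simp only at h
      linarith
    · exact absurd rfl hi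
    · obtain ⟨⟨h, -⟩, -⟩ : (x, y) ∈ Icc (1 : ℝ) 3 ×ˢ Icc (-2 : ℝ) 3 := hp
      simp only at h
      linarith
  have d3 : ∀ i : Fin 4, i ≠ 3 → Disjoint Rg (outS i) := by
    intro i hi
    rw [Set.disjoint_left]
    rintro ⟨x, y⟩ ⟨⟨hx1, hx2⟩, hy⟩ hp
    simp only [mem_singleton_iff] at hx1 hx2 hy
    fin_cases i
    · obtain ⟨-, -, h⟩ : (x, y) ∈ Icc (-2 : ℝ) 3 ×ˢ Icc (-2 : ℝ) 0 := hp
      simp only at h
      linarith
    · obtain ⟨-, h, -⟩ : (x, y) ∈ Icc (-2 : ℝ) 3 ×ˢ Icc (1 : ℝ) 3 := hp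
      simp only at h
      linarith
    · obtain ⟨⟨-, h⟩, -⟩ : (x, y) ∈ Icc (-2 : ℝ) 0 ×ˢ Icc (-2 : ℝ) 3 := hp
      simp only at h
      linarith
    · exact absurd rfl hi
  have e1 : ∀ i : Fin 4, ∃ η > 0, ∀ p ∈ R₁, ∀ p' ∈ outS i, η < dist (e p) (e p') := fun i =>
    exists_dist_image he hR₁c (isCompact_outS i) (d1 i)
  have e2 : ∀ i : Fin 4, ∃ η > 0, i ≠ 2 → ∀ p ∈ Lf, ∀ p' ∈ outS i, η < dist (e p) (e p') := by
    intro i
    by_cases hi : i = 2
    · exact ⟨1, one_pos, fun h => absurd hi h⟩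
    · obtain ⟨η, h1, h2⟩ := exists_dist_image he hLfc (isCompact_outS i) (d2 i hi)
      exact ⟨η, h1, fun _ => h2⟩
  have e3 : ∀ i : Fin 4, ∃ η > 0, i ≠ 3 → ∀ p ∈ Rg, ∀ p' ∈ outS i, η < dist (e p) (e p') := by
    intro i
    by_cases hi : i = 3
    · exact ⟨1, one_pos, fun h => absurd hi h⟩
    · obtain ⟨η, h1, h2⟩ := exists_dist_image he hRgc (isCompact_outS i) (d3 i hi)
      exact ⟨η, h1, fun _ => h2⟩
  choose η₁ hη₁ hd₁ using e1
  choose η₂ hη₂ hd₂ using e2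
  choose η₃ hη₃ hd₃ using e3
  obtain ⟨η, hη, hle⟩ : ∃ η : ℝ, 0 < η ∧ ∀ i : Fin 4, η ≤ η₁ i ∧ η ≤ η₂ i ∧ η ≤ η₃ i := by
    refine ⟨Finset.univ.inf' Finset.univ_nonempty (fun i : Fin 4 => min (η₁ i) (min (η₂ i) (η₃ i))),
      ?_, ?_⟩
    · rw [Finset.lt_inf'_iff]
      intro i _
      exact lt_min (hη₁ i) (lt_min (hη₂ i) (hη₃ i))
    · intro i
      have h := Finset.inf'_le (fun i : Fin 4 => min (η₁ i) (min (η₂ i) (η₃ i))) (Finset.mem_univ i)
      exact ⟨h.trans (min_le_left _ _), h.trans ((min_le_right _ _).trans (min_le_left _ _)),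
        h.trans ((min_le_right _ _).trans (min_le_right _ _))⟩
  have hA' : 0 < |A| + 1 := by positivity
  obtain ⟨k₁, hk₁⟩ : ∃ k₁ : ℕ, (1 / 2 : ℝ) ^ k₁ < η / (|A| + 1) :=
    exists_pow_lt_of_lt_one (div_pos hη hA') (by norm_num)
  refine ⟨k₁, fun k hk Nk ρ m a b E T hB I hm lab hD hfr hnear z hz => ?_⟩
  have hsck : A * sc k < η := by
    have h1 : sc k < η / (|A| + 1) := by
      refine lt_of_le_of_lt ?_ hk₁
      unfold sc
      exact pow_le_pow_of_le_one (by norm_num) (by norm_num) hk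
    have h0 : 0 < sc k := by unfold sc; positivity
    rw [lt_div_iff₀ hA'] at h1
    have h2 : A * sc k ≤ |A| * sc k := mul_le_mul_of_nonneg_right (le_abs_self A) h0.le
    nlinarith
  -- bricks meeting the inner square are inner
  have hinn : ∀ c, (E c ∩ e '' R₁).Nonempty → ∃ j, lab c = Sum.inl j := by
    rintro c ⟨x, hxE, q, hq, rfl⟩
    rcases hcc : lab c with j | i
    · exact ⟨j, rfl⟩
    · obtain ⟨p, hp, hxp⟩ := hnear c i hcc _ hxE
      have := hd₁ i q hq p hp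
      have := (hle i).1
      linarith
  have hR₁sub : e '' R₁ ⊆ ⋃ c, E c := by
    refine Subset.trans (image_mono ?_) hB.cover
    exact Set.prod_mono (Icc_subset_Icc (by linarith) (by linarith))
      (Icc_subset_Icc (by linarith) (by linarith))
  have hLfsub : e '' Lf ⊆ ⋃ c, E c := by
    refine Subset.trans (image_mono ?_) hB.cover
    refine Set.prod_mono (Icc_subset_Icc (by linarith) (by norm_num)) ?_
    rw [singleton_subset_iff]
    norm_num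
  have hRgsub : e '' Rg ⊆ ⋃ c, E c := by
    refine Subset.trans (image_mono ?_) hB.cover
    refine Set.prod_mono (Icc_subset_Icc (by norm_num) (by linarith)) ?_
    rw [singleton_subset_iff]
    norm_num
  have hmid : ((1 / 2 : ℝ), (1 / 2 : ℝ)) ∈ R₁ := by
    refine ⟨⟨?_, ?_⟩, ⟨?_, ?_⟩⟩ <;> simp only <;> linarith
  have hmidL : ((1 / 2 : ℝ), (1 / 2 : ℝ)) ∈ Lf := by
    refine ⟨⟨?_, ?_⟩, ?_⟩ <;> simp
  have hmidR : ((1 / 2 : ℝ), (1 / 2 : ℝ)) ∈ Rg := by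
    refine ⟨⟨?_, ?_⟩, ?_⟩ <;> norm_num
  obtain ⟨c₀, hc₀⟩ := mem_iUnion.1 (hR₁sub (mem_image_of_mem e hmid))
  obtain ⟨j₀, hj₀⟩ := hinn c₀ ⟨_, hc₀, mem_image_of_mem e hmid⟩
  have hR₁conn : IsPreconnected (e '' R₁) :=
    (isPreconnected_Icc.prod isPreconnected_Icc).image _ he.continuous.continuousOn
  have hLfconn : IsPreconnected (e '' Lf) :=
    (isPreconnected_Icc.prod isPreconnected_singleton).image _ he.continuous.continuousOn
  have hRgconn : IsPreconnected (e '' Rg) :=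
    (isPreconnected_Icc.prod isPreconnected_singleton).image _ he.continuous.continuousOn
  -- a brick containing a point of the boundary of the square is in a giant
  have hgiant : ∀ (p : ℝ × ℝ) (c : Fin m × Fin m), p ∉ Ioo (0 : ℝ) 1 ×ˢ Ioo (0 : ℝ) 1 → e p ∈ E c →
      ∃ i, lab c = Sum.inr i := by
    intro p c hp hc
    rcases hcc : lab c with j | i
    · exfalso
      have h1 : fr m a b c = none := by
        rcases hf : fr m a b c with _ | i
        · rfl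
        · rw [hfr c i hf] at hcc
          simp at hcc
      obtain ⟨q, hq, hqe⟩ := hB.mid c h1 hc
      rw [he.injective hqe] at hq
      exact hp hq
    · exact ⟨i, rfl⟩
  -- left
  obtain ⟨j₂, hj₂, hch₂⟩ : ∃ j ∈ side (boardRect m m hm hm) lab 2,
      Relation.ReflTransGen (iadj (boardRect m m hm hm) lab) j₀ j := by
    have hp : ((0 : ℝ), (1 / 2 : ℝ)) ∈ Lf := by
      refine ⟨⟨?_, ?_⟩, ?_⟩ <;> norm_num
    obtain ⟨c₁, hc₁⟩ := mem_iUnion.1 (hLfsub (mem_image_of_mem e hp))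
    refine reach_side hB hLfconn hLfsub ⟨_, hc₀, mem_image_of_mem e hmidL⟩
      ⟨_, hc₁, mem_image_of_mem e hp⟩ hj₀ 2 (hgiant _ c₁ ?_ hc₁) ?_
    · rintro ⟨⟨h, -⟩, -⟩
      exact lt_irrefl _ h
    · rintro c i ⟨x, hxE, q, hq, rfl⟩ hci
      by_contra hi
      obtain ⟨p, hp, hxp⟩ := hnear c i hci _ hxE
      have := hd₂ i hi q hq p hp
      have := (hle i).2.1
      linarith
  obtain ⟨j₃, hj₃, hch₃⟩ : ∃ j ∈ side (boardRect m m hm hm) lab 3,
      Relation.ReflTransGen (iadj (boardRect m m hm hm) lab) j₀ j := by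
    have hp : ((1 : ℝ), (1 / 2 : ℝ)) ∈ Rg := by
      refine ⟨⟨?_, ?_⟩, ?_⟩ <;> norm_num
    obtain ⟨c₁, hc₁⟩ := mem_iUnion.1 (hRgsub (mem_image_of_mem e hp))
    refine reach_side hB hRgconn hRgsub ⟨_, hc₀, mem_image_of_mem e hmidR⟩
      ⟨_, hc₁, mem_image_of_mem e hp⟩ hj₀ 3 (hgiant _ c₁ ?_ hc₁) ?_
    · rintro ⟨⟨-, h⟩, -⟩
      exact lt_irrefl _ h
    · rintro c i ⟨x, hxE, q, hq, rfl⟩ hci
      by_contra hi
      obtain ⟨p, hp, hxp⟩ := hnear c i hci _ hxE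
      have := hd₃ i hi q hq p hp
      have := (hle i).2.2
      linarith
  -- the component of `j₀` is the main component
  set J : Set I := {j | Relation.ReflTransGen (iadj (boardRect m m hm hm) lab) j₀ j} with hJ
  have hJmain : J ⊆ main (boardRect m m hm hm) lab := by
    refine hD.subset_main ?_ ?_
    · refine ⟨j₂, hch₂, hj₂, j₃, hch₃, hj₃, ?_⟩
      refine chain_in_comp (M := J) (fun i j hi hij => Relation.ReflTransGen.trans hi hij) hch₂ ?_
      exact (rtg_symm iadj_symm hch₂).trans hch₃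
    · intro i hi j hj
      exact (rtg_symm iadj_symm hi).trans hj
  -- the given point
  obtain ⟨q, hq, rfl⟩ := hz
  have hqR : q ∈ R₁ := Set.prod_mono (Icc_subset_Icc hδ3 (by linarith))
    (Icc_subset_Icc hδ3 (by linarith)) hq
  obtain ⟨c, hc⟩ := mem_iUnion.1 (hR₁sub (mem_image_of_mem e hqR))
  obtain ⟨j, hj⟩ := hinn c ⟨_, hc, mem_image_of_mem e hqR⟩
  refine ⟨j, hJmain ?_, c, hj, hc⟩
  have hch := aux_chain E (fun c => (hB.compact c).isClosed) hadj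
    (fun c c' h => (hB.inter c c').1 h) hR₁conn hR₁sub c₀ c ⟨_, hc₀, mem_image_of_mem e hmid⟩
    ⟨_, hc, mem_image_of_mem e hqR⟩
  exact chain_lab (H := boardRect m m hm hm) (P := fun c => (E c ∩ e '' R₁).Nonempty) hinn hch
    hj₀ j hj

end P198T
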