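import Vale.Agent.P198.Q.Defs
import Vale.Agent.P198.Hex.Merge

/-!
# P198, Stage 2, block TL: definitions

`Bricks` = the fine hexagonal bricks of a chart together with the sets `T v` of bricks near a net
point.
-/

open Metric Set TopologicalSpace P198Q P198S P198.PlanarTop

namespace P198T

universe u

/-- classes of the frame bricks: bottom, top, left, right; `none` = brick in the middle. -/
def fr (m a b : ℕ) (c : Fin m × Fin m) : Option (Fin 4) :=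
  if (c.2 : ℕ) < a then some 0 else if b ≤ (c.2 : ℕ) then some 1
  else if (c.1 : ℕ) < a then some 2 else if b ≤ (c.1 : ℕ) then some 3 else none

/-- closed sides of the unit square: bottom, top, left, right -/
def sideS : Fin 4 → Set (ℝ × ℝ) :=
  ![Icc 0 1 ×ˢ {0}, Icc 0 1 ×ˢ {1}, {0} ×ˢ Icc 0 1, {1} ×ˢ Icc 0 1]

/-- the four outer regions -/
def outS : Fin 4 → Set (ℝ × ℝ) :=
  ![Icc (-2) 3 ×ˢ Icc (-2) 0, Icc (-2) 3 ×ˢ Icc 1 3, Icc (-2) 0 ×ˢ Icc (-2) 3,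
    Icc 1 3 ×ˢ Icc (-2) 3]

structure Bricks {Z : Type*} [MetricSpace Z] (e : ℝ × ℝ → Z) (N : Finset Z) (η ρ : ℝ)
    (m a b : ℕ) (E : Fin m × Fin m → Set Z) (T : Z → Set (Fin m × Fin m)) : Prop where
  ha : 0 < a
  hab : a < b
  hbm : b < m
  compact : ∀ c, IsCompact (E c)
  conn : ∀ c, IsConnected (E c)
  small : ∀ c, ∀ x ∈ E c, ∀ y ∈ E c, dist x y ≤ η
  inter : ∀ c c', (E c ∩ E c').Nonempty ↔ c = c' ∨ hadj c c'
  cover : e '' (Icc 0 1 ×ˢ Icc 0 1) ⊆ ⋃ c, E c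
  mid : ∀ c, fr m a b c = none → E c ⊆ e '' (Ioo 0 1 ×ˢ Ioo 0 1)
  out : ∀ c i, fr m a b c = some i → ∃ p ∈ outS i, e p ∈ E c
  side : ∀ c c' i, fr m a b c = none → fr m a b c' = some i → hadj c c' →
    ∃ w ∈ sideS i, ∃ z ∈ E c', dist z (e w) ≤ η
  Tconn : ∀ v, ∀ x ∈ T v, ∀ y ∈ T v,
    Relation.ReflTransGen (fun p q => hadj p q ∧ p ∈ T v ∧ q ∈ T v) x y
  Tnear : ∀ v, ∀ c ∈ T v, E c ⊆ closedBall v ρ
  Tcov : ∀ c, fr m a b c = none → ∃ v ∈ N, c ∈ T v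

end P198T
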