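import Vale.Agent.P198.TL.Cluster

/-!
# P198, Stage 2, block TL: two general lemmas

`aconn_of_preconnected`: closed sets covering a preconnected set form an adjacency-connected family.
`exists_sep`: disjoint compact sets have images at positive distance.
-/

open Set Metric

namespace P198T

theorem aconn_of_preconnected {ι Z : Type*} [Finite ι] [TopologicalSpace Z] {E : ι → Set Z}
    {adj : ι → ι → Prop} (hE : ∀ c, IsClosed (E c))
    (hinter : ∀ c c', (E c ∩ E c').Nonempty → c = c' ∨ adj c c') {K : Set Z}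
    (hK : IsPreconnected K) (hcov : K ⊆ ⋃ c, E c) : AConn adj {c | (E c ∩ K).Nonempty} := by
  intro x hx y hy
  by_contra hxy
  set S : Set ι := {c | (E c ∩ K).Nonempty} with hS
  set X : Set Z := ⋃ c ∈ {c | c ∈ S ∧ Ch adj S x c}, E c with hX
  set Y : Set Z := ⋃ c ∈ {c | c ∈ S ∧ ¬ Ch adj S x c}, E c with hY
  have hXc : IsClosed X := (Set.toFinite _).isClosed_biUnion fun d _ => hE d
  have hYc : IsClosed Y := (Set.toFinite _).isClosed_biUnion fun d _ => hE d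
  have hsub : K ⊆ X ∪ Y := by
    intro p hp
    obtain ⟨c, hc⟩ := mem_iUnion.1 (hcov hp)
    have hcS : c ∈ S := ⟨p, hc, hp⟩
    by_cases h : Ch adj S x c
    · exact Or.inl (mem_biUnion (show c ∈ {c | c ∈ S ∧ Ch adj S x c} from ⟨hcS, h⟩) hc)
    · exact Or.inr (mem_biUnion (show c ∈ {c | c ∈ S ∧ ¬ Ch adj S x c} from ⟨hcS, h⟩) hc)
  have h1 : (K ∩ X).Nonempty := by
    obtain ⟨p, hp, hpK⟩ := hx
    exact ⟨p, hpK, mem_biUnion (show x ∈ {c | c ∈ S ∧ Ch adj S x c} from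
      ⟨⟨p, hp, hpK⟩, Relation.ReflTransGen.refl⟩) hp⟩
  have h2 : (K ∩ Y).Nonempty := by
    obtain ⟨p, hp, hpK⟩ := hy
    exact ⟨p, hpK, mem_biUnion (show y ∈ {c | c ∈ S ∧ ¬ Ch adj S x c} from
      ⟨⟨p, hp, hpK⟩, hxy⟩) hp⟩
  obtain ⟨p, -, hpX, hpY⟩ := isPreconnected_closed_iff.1 hK X Y hXc hYc hsub h1 h2
  obtain ⟨c, hc, hpc⟩ := mem_iUnion₂.1 hpX
  obtain ⟨d, hd, hpd⟩ := mem_iUnion₂.1 hpY
  rcases hinter c d ⟨p, hpc, hpd⟩ with h | h
  · subst h
    exact hd.2 hc.2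
  · exact hd.2 (hc.2.tail ⟨h, hc.1, hd.1⟩)

theorem exists_sep {Z : Type*} [MetricSpace Z] {e : ℝ × ℝ → Z} (hc : Continuous e)
    (hi : Function.Injective e) {K L : Set (ℝ × ℝ)} (hK : IsCompact K) (hL : IsCompact L)
    (hKL : Disjoint K L) : ∃ κ > 0, ∀ p ∈ K, ∀ q ∈ L, κ ≤ dist (e p) (e q) := by
  rcases K.eq_empty_or_nonempty with h | hKn
  · exact ⟨1, one_pos, by simp [h]⟩
  rcases L.eq_empty_or_nonempty with h | hLn
  · exact ⟨1, one_pos, by simp [h]⟩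
  obtain ⟨⟨p₀, q₀⟩, hm, hmin⟩ := (hK.prod hL).exists_isMinOn (hKn.prod hLn)
    (f := fun z : (ℝ × ℝ) × (ℝ × ℝ) => dist (e z.1) (e z.2)) (by fun_prop)
  refine ⟨dist (e p₀) (e q₀), ?_, ?_⟩
  · rw [gt_iff_lt, dist_pos]
    intro h
    have := hi h
    subst this
    exact Set.disjoint_left.mp hKL hm.1 hm.2
  · intro p hp q hq
    exact hmin (show (p, q) ∈ K ×ˢ L from ⟨hp, hq⟩)

end P198T
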