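import Vale.Agent.P198.TL.Defs
import Vale.Agent.P198.TL.Pre

/-!
# P198, Stage 2, block TL: the frame classes are adjacency-connected
-/

open Set P198.PlanarTop

namespace P198T

theorem ch_row {m : ℕ} {S : Set (Fin m × Fin m)} (j : Fin m) (n i : ℕ) (hi : i + n < m)
    (hS : ∀ t (ht : t < m), i ≤ t → t ≤ i + n → ((⟨t, ht⟩, j) : Fin m × Fin m) ∈ S) :
    Ch hadj S ((⟨i, by omega⟩, j) : Fin m × Fin m) (⟨i + n, hi⟩, j) := by
  induction n with
  | zero => exact Relation.ReflTransGen.refl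
  | succ n ih =>
    have h1 := ih (by omega) (fun t ht h1 h2 => hS t ht h1 (by omega))
    refine Relation.ReflTransGen.tail h1 ⟨?_, hS _ _ (by omega) (by omega),
      hS _ _ (by omega) (by omega)⟩
    exact hadj_row (i := i + n) (by omega) j

theorem ch_col {m : ℕ} {S : Set (Fin m × Fin m)} (i : Fin m) (n j : ℕ) (hj : j + n < m)
    (hS : ∀ t (ht : t < m), j ≤ t → t ≤ j + n → ((i, ⟨t, ht⟩) : Fin m × Fin m) ∈ S) :
    Ch hadj S ((i, ⟨j, by omega⟩) : Fin m × Fin m) (i, ⟨j + n, hj⟩) := by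
  induction n with
  | zero => exact Relation.ReflTransGen.refl
  | succ n ih =>
    have h1 := ih (by omega) (fun t ht h1 h2 => hS t ht h1 (by omega))
    refine Relation.ReflTransGen.tail h1 ⟨?_, hS _ _ (by omega) (by omega),
      hS _ _ (by omega) (by omega)⟩
    exact hadj_col (j := j + n) (by omega) i

theorem ch_row' {m : ℕ} {S : Set (Fin m × Fin m)} (j p q : Fin m) (h : p ≤ q)
    (hS : ∀ t : Fin m, p ≤ t → t ≤ q → (t, j) ∈ S) : Ch hadj S (p, j) (q, j) := by
  obtain ⟨n, hn⟩ := Nat.exists_eq_add_of_le (show (p : ℕ) ≤ q from h)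
  have h1 := ch_row (S := S) j n p (by omega) (fun t ht h1 h2 => hS ⟨t, ht⟩ h1
    (by rw [Fin.le_def]; simp only; omega))
  have h2 : (⟨(p : ℕ) + n, by omega⟩ : Fin m) = q := Fin.ext (by simp only; omega)
  rw [h2] at h1
  exact h1

theorem ch_col' {m : ℕ} {S : Set (Fin m × Fin m)} (i p q : Fin m) (h : p ≤ q)
    (hS : ∀ t : Fin m, p ≤ t → t ≤ q → (i, t) ∈ S) : Ch hadj S (i, p) (i, q) := by
  obtain ⟨n, hn⟩ := Nat.exists_eq_add_of_le (show (p : ℕ) ≤ q from h)
  have h1 := ch_col (S := S) i n p (by omega) (fun t ht h1 h2 => hS ⟨t, ht⟩ h1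
    (by rw [Fin.le_def]; simp only; omega))
  have h2 : (⟨(p : ℕ) + n, by omega⟩ : Fin m) = q := Fin.ext (by simp only; omega)
  rw [h2] at h1
  exact h1

/-- rectangles of indices are adjacency-connected. -/
theorem aconn_rect {m : ℕ} {S : Set (Fin m × Fin m)}
    (h1 : ∀ x ∈ S, ∀ y ∈ S, (y.1, x.2) ∈ S)
    (h2 : ∀ (j p q t : Fin m), (p, j) ∈ S → (q, j) ∈ S → p ≤ t → t ≤ q → (t, j) ∈ S)
    (h3 : ∀ (i p q t : Fin m), (i, p) ∈ S → (i, q) ∈ S → p ≤ t → t ≤ q → (i, t) ∈ S) :
    AConn hadj S := by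
  have hs : ∀ a b : Fin m × Fin m, hadj a b → hadj b a := fun _ _ h => hadj.symm h
  rintro ⟨x1, x2⟩ hx ⟨y1, y2⟩ hy
  have hm : (y1, x2) ∈ S := h1 _ hx _ hy
  have c1 : Ch hadj S (x1, x2) (y1, x2) := by
    rcases le_total x1 y1 with h | h
    · exact ch_row' _ _ _ h fun t ht ht' => h2 _ _ _ t hx hm ht ht'
    · exact (ch_row' _ _ _ h fun t ht ht' => h2 _ _ _ t hm hx ht ht').symm hs
  have c2 : Ch hadj S (y1, x2) (y1, y2) := by
    rcases le_total x2 y2 with h | h
    · exact ch_col' _ _ _ h fun t ht ht' => h3 _ _ _ t hm hy ht ht'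
    · exact (ch_col' _ _ _ h fun t ht ht' => h3 _ _ _ t hy hm ht ht').symm hs
  exact c1.trans c2

theorem aconn_fr (m a b : ℕ) (hab : a < b) (g : Fin 4) :
    AConn hadj {c : Fin m × Fin m | fr m a b c = some g} := by
  have h4 : ∀ g : Fin 4, g = 0 ∨ g = 1 ∨ g = 2 ∨ g = 3 := by decide
  have key0 : ∀ c : Fin m × Fin m, fr m a b c = some 0 ↔ (c.2 : ℕ) < a := by
    intro c
    simp only [fr]
    split_ifs <;> simp_all
  have key1 : ∀ c : Fin m × Fin m, fr m a b c = some 1 ↔ b ≤ (c.2 : ℕ) := by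
    intro c
    simp only [fr]
    split_ifs <;> simp_all
    omega
  have key2 : ∀ c : Fin m × Fin m, fr m a b c = some 2 ↔
      a ≤ (c.2 : ℕ) ∧ (c.2 : ℕ) < b ∧ (c.1 : ℕ) < a := by
    intro c
    simp only [fr]
    split_ifs <;> simp_all <;> omega
  have key3 : ∀ c : Fin m × Fin m, fr m a b c = some 3 ↔
      a ≤ (c.2 : ℕ) ∧ (c.2 : ℕ) < b ∧ b ≤ (c.1 : ℕ) := by
    intro c
    simp only [fr]
    split_ifs <;> simp_all <;> omega
  rcases h4 g with rfl | rfl | rfl | rfl
  · simp only [key0]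
    refine aconn_rect ?_ ?_ ?_
    · intro x hx y hy
      simp only [mem_ofPred_eq] at *; omega
    · intro j p q t hp hq h1 h2
      simp only [mem_ofPred_eq, Fin.le_def] at *; omega
    · intro j p q t hp hq h1 h2
      simp only [mem_ofPred_eq, Fin.le_def] at *; omega
  · simp only [key1]
    refine aconn_rect ?_ ?_ ?_
    · intro x hx y hy
      simp only [mem_ofPred_eq] at *; omega
    · intro j p q t hp hq h1 h2
      simp only [mem_ofPred_eq, Fin.le_def] at *; omega
    · intro j p q t hp hq h1 h2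
      simp only [mem_ofPred_eq, Fin.le_def] at *; omega
  · simp only [key2]
    refine aconn_rect ?_ ?_ ?_
    · intro x hx y hy
      simp only [mem_ofPred_eq] at *; omega
    · intro j p q t hp hq h1 h2
      simp only [mem_ofPred_eq, Fin.le_def] at *; omega
    · intro j p q t hp hq h1 h2
      simp only [mem_ofPred_eq, Fin.le_def] at *; omega
  · simp only [key3]
    refine aconn_rect ?_ ?_ ?_
    · intro x hx y hy
      simp only [mem_ofPred_eq] at *; omega
    · intro j p q t hp hq h1 h2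
      simp only [mem_ofPred_eq, Fin.le_def] at *; omega
    · intro j p q t hp hq h1 h2
      simp only [mem_ofPred_eq, Fin.le_def] at *; omega

end P198T
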