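import Vale.Agent.P198.TL.Lbl
import Vale.Agent.P198.TL.Rows

/-!
# P198, Stage 2, block TL: existence of labellings
-/

open Metric Set TopologicalSpace P198Q P198S P198.PlanarTop

namespace P198T

theorem exists_lbl {Z : Type*} [MetricSpace Z] {e : ℝ × ℝ → Z} {N : Finset Z} {η ρ : ℝ}
    {m a b : ℕ} {E : Fin m × Fin m → Set Z} {T : Z → Set (Fin m × Fin m)}
    (hB : Bricks e N η ρ m a b E T) (hη : 0 ≤ η) (hρ : 0 ≤ ρ) (D : ℕ)
    (hD : ∀ v, ∀ S' : Finset Z, S' ⊆ N → (∀ w ∈ S', dist w v ≤ 2 * ρ) → S'.card < D) :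
    ∃ (J : Type) (_ : Finite J) (pt : J → Z) (lab : Fin m × Fin m → J ⊕ Fin 4),
      (∀ i, pt i ∈ N) ∧ Function.Injective pt ∧
      Lbl m a b E (2 * η + 2 * D * ρ + ρ) pt lab := by
  classical
  have hs : ∀ x y : Fin m × Fin m, hadj x y → hadj y x := fun _ _ h => hadj.symm h
  -- net points
  set V : Type := Fin N.card with hV
  let pt0 : V → Z := fun v => (N.equivFin.symm v : Z)
  have hpt0 : ∀ v, pt0 v ∈ N := fun v => (N.equivFin.symm v).2
  have hpt0i : Function.Injective pt0 := fun v w h => N.equivFin.symm.injective (Subtype.ext h)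
  have hpt0s : ∀ z ∈ N, ∃ v, pt0 v = z := by
    intro z hz
    refine ⟨N.equivFin ⟨z, hz⟩, ?_⟩
    simp only [pt0, Equiv.symm_apply_apply]
  -- colouring
  obtain ⟨col, hcol1, hcol2⟩ := exists_coloring (fun v w : Z => dist v w ≤ 2 * ρ)
    (fun v w h => by rw [dist_comm]; exact h) D N (fun v hv S' hS' h => hD v S' hS' fun w hw => by
      rw [dist_comm]; exact (h w hw).2)
  -- base points
  have hbp : ∀ c, ∃ z, z ∈ E c := fun c => (hB.conn c).nonempty
  choose bp hbp using hbp
  have hTd : ∀ v, ∀ x ∈ T v, dist (bp x) v ≤ ρ := fun v x hx => hB.Tnear v x hx (hbp x)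
  obtain ⟨lab0, hl1, hl2, hl3, hl4⟩ := exists_clusters (adj := hadj) hs (fun v : V => T (pt0 v))
    (fr m a b) (fun v => col (pt0 v)) D (fun v => hcol1 _ (hpt0 v))
    (fun x y => dist (bp x) (bp y)) (2 * ρ) (by positivity) (fun v => hB.Tconn (pt0 v))
    (aconn_fr m a b hB.hab) (fun x => dist_self _) (fun x y z => dist_triangle _ _ _)
    (fun v x hx y hy => by
      have e1 := hTd _ x hx
      have e2 := hTd _ y hy
      have e3 := dist_triangle_right (bp x) (bp y) (pt0 v)
      linarith)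
    (fun v w x hvw hxv hxw => by
      by_contra hne
      have hne' : pt0 v ≠ pt0 w := fun h => hne (hpt0i h)
      refine hcol2 _ (hpt0 v) _ (hpt0 w) hne' ?_ hvw
      have e1 := hTd _ x hxv
      have e2 := hTd _ x hxw
      have e3 := dist_triangle_left (pt0 v) (pt0 w) (bp x)
      linarith)
    (fun x => by
      by_cases hx : fr m a b x = none
      · right
        obtain ⟨v, hv, hxv⟩ := hB.Tcov x hx
        obtain ⟨w, rfl⟩ := hpt0s v hv
        exact ⟨w, hxv⟩
      · exact Or.inl hx)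
  -- restrict to the used net points
  let J : Type := {v : V // ∃ c, lab0 c = Sum.inl v}
  have hex : ∀ c, ∃ l : J ⊕ Fin 4, Sum.map Subtype.val id l = lab0 c := by
    intro c
    rcases h : lab0 c with v | g
    · exact ⟨Sum.inl ⟨v, c, h⟩, rfl⟩
    · exact ⟨Sum.inr g, rfl⟩
  choose lab hlab using hex
  have hinl : ∀ c (i : J), lab c = Sum.inl i → lab0 c = Sum.inl i.1 := by
    intro c i h
    rw [← hlab c, h]; rfl
  have hinr : ∀ c (g : Fin 4), lab c = Sum.inr g → lab0 c = Sum.inr g := by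
    intro c g h
    rw [← hlab c, h]; rfl
  have hmi : Function.Injective (Sum.map Subtype.val id : J ⊕ Fin 4 → V ⊕ Fin 4) :=
    Function.Injective.sumMap Subtype.val_injective Function.injective_id
  have hinr' : ∀ c (g : Fin 4), lab0 c = Sum.inr g → lab c = Sum.inr g := by
    intro c g h
    apply hmi
    rw [hlab c, h]; rfl
  have hinl' : ∀ c (i : J), lab0 c = Sum.inl i.1 → lab c = Sum.inl i := by
    intro c i h
    apply hmi
    rw [hlab c, h]; rfl
  have hD0 : (0 : ℝ) ≤ D := Nat.cast_nonneg D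
  refine ⟨J, inferInstance, fun i => pt0 i.1, lab, fun i => hpt0 _, fun i j h =>
    Subtype.ext (hpt0i h), ?_, ?_, ?_, ?_, ?_⟩
  · rintro ⟨v, c, hc⟩
    exact ⟨c, hinl' c ⟨v, c, hc⟩ hc⟩
  · intro c i h
    exact hinr' c i (hl1 c i h)
  · intro l
    have : {c | lab c = l} = {c | lab0 c = Sum.map Subtype.val id l} := by
      ext c
      constructor
      · intro h
        change lab0 c = _
        rw [← hlab c]
        exact congrArg _ h
      · intro h
        apply hmi
        rw [hlab c]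
        exact h
    rw [this]
    exact hl2 _
  · intro c i h z hz
    obtain ⟨P, h1, h2, h3, h4, x, hxP, hxT⟩ := hl4 c
    rw [hinl c i h] at hxT
    have e1 := h4 x hxP
    have e2 := hTd (pt0 i.1) x hxT
    have e3 := hB.small c z hz _ (hbp c)
    have e4 := dist_triangle4 z (bp c) (bp x) (pt0 i.1)
    rw [mem_closedBall]
    nlinarith [mul_nonneg hD0 hρ]
  · intro c g h
    obtain ⟨P, h1, h2, h3, h4, x, hxP, hxT⟩ := hl4 c
    rw [hinr c g h] at hxT h3
    refine ⟨P, x, h1, hxP, h2, fun b' hb' => hinr' _ _ (h3 b' hb'), hxT, ?_⟩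
    intro b' hb' z hz w hw
    have e1 := h4 b' hb'
    have e2 := hB.small b' z hz _ (hbp b')
    have e3 := hB.small c _ (hbp c) w hw
    have e4 := dist_triangle4 z (bp b') (bp c) w
    have e5 := dist_comm (bp b') (bp c)
    nlinarith [mul_nonneg hD0 hρ]

end P198T
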