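import Vale.Agent.P198.TL.Defs
import Vale.Agent.P198.TL.Pre
import Vale.Agent.P198.CH.Defs

/-!
# P198, Stage 2, block TL: labelled bricks and the combinatorial rectangle of clusters
-/

open Metric Set TopologicalSpace P198Q P198S P198.PlanarTop

namespace P198T

/-- bricks labelled by net points (`inl`) and by the four giants (`inr`). -/
structure Lbl {Z : Type*} [MetricSpace Z] (m a b : ℕ) (E : Fin m × Fin m → Set Z) (R : ℝ)
    {J : Type} (pt : J → Z) (lab : Fin m × Fin m → J ⊕ Fin 4) : Prop where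
  surj : ∀ i : J, ∃ c, lab c = Sum.inl i
  frame : ∀ c i, fr m a b c = some i → lab c = Sum.inr i
  conn : ∀ l, AConn hadj {c | lab c = l}
  near : ∀ c i, lab c = Sum.inl i → E c ⊆ closedBall (pt i) R
  reach : ∀ c i, lab c = Sum.inr i → ∃ (P : Set (Fin m × Fin m)) (c' : Fin m × Fin m), c ∈ P ∧
    c' ∈ P ∧ AConn hadj P ∧ (∀ b' ∈ P, lab b' = Sum.inr i) ∧ fr m a b c' = some i ∧
    ∀ b' ∈ P, ∀ z ∈ E b', ∀ w ∈ E c, dist z w ≤ R

section

variable {Z : Type*} [MetricSpace Z] {e : ℝ × ℝ → Z} {N : Finset Z} {η ρ R : ℝ}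
  {m a b : ℕ} {E : Fin m × Fin m → Set Z} {T : Z → Set (Fin m × Fin m)}
  {J : Type} {pt : J → Z} {lab : Fin m × Fin m → J ⊕ Fin 4}

theorem Lbl.near_out (hB : Bricks e N η ρ m a b E T) (hl : Lbl m a b E R pt lab)
    {c : Fin m × Fin m} {i : Fin 4} (h : lab c = Sum.inr i) :
    ∃ p ∈ outS i, ∀ w ∈ E c, dist (e p) w ≤ R := by
  obtain ⟨P, c', h1, h2, h3, h4, h5, h6⟩ := hl.reach c i h
  obtain ⟨p, hp, hpE⟩ := hB.out c' i h5
  exact ⟨p, hp, h6 c' h2 _ hpE⟩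

theorem Lbl.fr_none (hl : Lbl m a b E R pt lab) {c : Fin m × Fin m} {i : J}
    (h : lab c = Sum.inl i) : fr m a b c = none := by
  rcases hf : fr m a b c with _ | g
  · rfl
  · have := hl.frame c g hf
    rw [h] at this
    cases this

/-- the clusters form merge data. -/
theorem Lbl.mergeData (hB : Bricks e N η ρ m a b E T) (hl : Lbl m a b E R pt lab) {κ : ℝ}
    (hκ : 2 * R < κ) (h01 : ∀ p ∈ outS 0, ∀ q ∈ outS 1, κ ≤ dist (e p) (e q))
    (h23 : ∀ p ∈ outS 2, ∀ q ∈ outS 3, κ ≤ dist (e p) (e q)) (hm : 0 < m) :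
    MergeData (boardRect m m hm hm) lab := by
  have ha := hB.ha
  have hab := hB.hab
  have hbm := hB.hbm
  have hno : ∀ (g g' : Fin 4), (∀ p ∈ outS g, ∀ q ∈ outS g', κ ≤ dist (e p) (e q)) →
      ∀ x y, hadj x y → lab x = Sum.inr g → lab y ≠ Sum.inr g' := by
    intro g g' hsep x y hxy hx hy
    obtain ⟨p, hp, hp'⟩ := hl.near_out hB hx
    obtain ⟨q, hq, hq'⟩ := hl.near_out hB hy
    obtain ⟨z, hz1, hz2⟩ := (hB.inter x y).2 (Or.inr hxy)
    have e1 := hp' z hz1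
    have e2 := hq' z hz2
    have e3 := hsep p hp q hq
    have e4 := dist_triangle_right (e p) (e q) z
    linarith
  have hfr0 : ∀ c : Fin m × Fin m, (c.2 : ℕ) < a → fr m a b c = some 0 := by
    intro c hc; simp [fr, hc]
  have hfr1 : ∀ c : Fin m × Fin m, b ≤ (c.2 : ℕ) → fr m a b c = some 1 := by
    intro c hc
    have : ¬ (c.2 : ℕ) < a := by omega
    simp [fr, hc, this]
  have hfr2 : ∀ c : Fin m × Fin m, ¬ (c.2 : ℕ) < a → ¬ b ≤ (c.2 : ℕ) → (c.1 : ℕ) < a →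
      fr m a b c = some 2 := by
    intro c h1 h2 h3
    simp only [fr, if_neg h1, if_neg h2, if_pos h3]
  have hfr3 : ∀ c : Fin m × Fin m, ¬ (c.2 : ℕ) < a → ¬ b ≤ (c.2 : ℕ) → b ≤ (c.1 : ℕ) →
      fr m a b c = some 3 := by
    intro c h1 h2 h3
    have h4 : ¬ (c.1 : ℕ) < a := by omega
    simp only [fr, if_neg h1, if_neg h2, if_neg h4, if_pos h3]
  refine ⟨hl.surj, ?_, ?_, ?_, ?_, ?_, hno 0 1 h01, hno 2 3 h23, ?_, ?_⟩
  · intro x y hxy
    have := hl.conn (lab x) x rfl y hxy.symm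
    exact this
  · intro c hc
    have hc' : (c.2 : ℕ) = 0 := hc
    exact hl.frame c 0 (hfr0 c (by omega))
  · intro c hc
    have hc' : (c.2 : ℕ) + 1 = m := hc
    exact hl.frame c 1 (hfr1 c (by omega))
  · intro c hc
    have hc' : (c.1 : ℕ) = 0 := hc
    by_cases h1 : (c.2 : ℕ) < a
    · exact Or.inl (hl.frame c 0 (hfr0 c h1))
    by_cases h2 : b ≤ (c.2 : ℕ)
    · exact Or.inr (Or.inl (hl.frame c 1 (hfr1 c h2)))
    · exact Or.inr (Or.inr (hl.frame c 2 (hfr2 c h1 h2 (by omega))))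
  · intro c hc
    have hc' : (c.1 : ℕ) + 1 = m := hc
    by_cases h1 : (c.2 : ℕ) < a
    · exact Or.inl (hl.frame c 0 (hfr0 c h1))
    by_cases h2 : b ≤ (c.2 : ℕ)
    · exact Or.inr (Or.inl (hl.frame c 1 (hfr1 c h2)))
    · exact Or.inr (Or.inr (hl.frame c 3 (hfr3 c h1 h2 (by omega))))
  · refine ⟨(⟨0, hm⟩, ⟨a, by omega⟩), ?_, ?_⟩
    · change ((⟨0, hm⟩ : Fin m) : ℕ) = 0
      rfl
    · exact hl.frame _ 2 (hfr2 _ (by simp) (by simp; omega) (by simp; omega))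
  · refine ⟨(⟨m - 1, by omega⟩, ⟨a, by omega⟩), ?_, ?_⟩
    · change ((⟨m - 1, _⟩ : Fin m) : ℕ) + 1 = m
      simp; omega
    · exact hl.frame _ 3 (hfr3 _ (by simp) (by simp; omega) (by simp; omega))

end

end P198T
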