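import Vale.Agent.P198.TL.Lbl

/-!
# P198, Stage 2, block TL: from labelled bricks to a board
-/

open Metric Set TopologicalSpace P198Q P198S P198.PlanarTop

namespace P198T

section

variable {Z : Type*} [MetricSpace Z] {e : ℝ × ℝ → Z} {N : Finset Z} {η ρ R : ℝ}
  {m a b : ℕ} {E : Fin m × Fin m → Set Z} {T : Z → Set (Fin m × Fin m)}
  {J : Type} {pt : J → Z} {lab : Fin m × Fin m → J ⊕ Fin 4}

/-- the cell of the cluster `i` -/
def cellOf (E : Fin m × Fin m → Set Z) (lab : Fin m × Fin m → J ⊕ Fin 4) (i : J) : Set Z :=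
  ⋃ c ∈ {c | lab c = Sum.inl i}, E c

omit [MetricSpace Z] in
theorem mem_cellOf {i : J} {z : Z} :
    z ∈ cellOf E lab i ↔ ∃ c, lab c = Sum.inl i ∧ z ∈ E c := by
  simp [cellOf]

/-- distance of a cluster adjacent to a giant from the side of the square -/
theorem Lbl.near_side (hB : Bricks e N η ρ m a b E T) (hl : Lbl m a b E R pt lab) (hR : 0 ≤ R)
    (hη : 0 ≤ η) {x y : Fin m × Fin m} {g : Fin 4} {i : J} (hx : lab x = Sum.inr g)
    (hy : lab y = Sum.inl i) (hxy : hadj x y) :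
    ∃ w ∈ sideS g, ∃ z ∈ E y, dist z (e w) ≤ R + 2 * η := by
  obtain ⟨z, hz1, hz2⟩ := (hB.inter x y).2 (Or.inr hxy)
  have hfy := hl.fr_none hy
  have hfx : ∀ g', fr m a b x = some g' → g' = g := by
    intro g' h
    have := hl.frame x g' h
    rw [hx] at this
    exact (Sum.inr_injective this).symm
  rcases hf : fr m a b x with _ | g'
  · obtain ⟨P, c', h1, h2, h3, h4, h5, h6⟩ := hl.reach x g hx
    have hne : ¬ (fr m a b c' = none) := by rw [h5]; simp
    obtain ⟨b', a', g1, g2, g3, g4, g5⟩ := (h3 x h1 c' h2).exit (p := fun z => fr m a b z = none) hf hne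
    have hfa : fr m a b a' = some g := by
      obtain ⟨g'', hg''⟩ := Option.ne_none_iff_exists'.mp g4
      have e1 := hl.frame a' g'' hg''
      rw [h4 a' g3] at e1
      rw [hg'', Sum.inr_injective e1]
    obtain ⟨w, hw, z', hz', hd⟩ := hB.side b' a' g g2 hfa g5
    refine ⟨w, hw, z, hz2, ?_⟩
    have e1 := h6 a' g3 z' hz' z hz1
    have e2 := dist_triangle_left z (e w) z'
    linarith
  · have hg := hfx g' hf
    subst hg
    obtain ⟨w, hw, z', hz', hd⟩ := hB.side y x g' hfy hf (hadj.symm hxy)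
    refine ⟨w, hw, z, hz2, ?_⟩
    have e1 := hB.small x z' hz' z hz1
    have e2 := dist_triangle_left z (e w) z'
    linarith

theorem sideS_eq (g : Fin 4) : sideS g = ![Icc 0 1 ×ˢ {0}, Icc 0 1 ×ˢ {1}, {0} ×ˢ Icc 0 1,
    {1} ×ˢ Icc 0 1] g := rfl

/-- the board of a labelling. -/
theorem Lbl.exists_board {NN : ℕ → Finset Z} {k : ℕ} {A : ℝ} (he : Topology.IsOpenEmbedding e)
    (hB : Bricks e (NN k) η ρ m a b E T)
    (hl : Lbl m a b E R pt lab) [Finite J] (hm : 0 < m) (D : MergeData (boardRect m m hm hm) lab)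
    (hR : 0 ≤ R) (hη : 0 ≤ η) (hpt : ∀ i, pt i ∈ NN k) (hinj : Function.Injective pt)
    (hRA : R + 2 * η ≤ A * sc k) :
    ∃ B : P198C.Board e NN k A, (⋃ c, B.cell c) = ⋃ i ∈ main (boardRect m m hm hm) lab,
      cellOf E lab i := by
  classical
  have : Fintype J := Fintype.ofFinite J
  set H := boardRect m m hm hm with hH
  have hcl : ∀ c, IsClosed (E c) := fun c => (hB.compact c).isClosed
  have hside : ∀ (g : Fin 4) (c : main H lab), (c : J) ∈ side H lab g →
      ∃ w ∈ e '' (sideS g), ∃ z ∈ cellOf E lab (c : J), dist z w ≤ A * sc k := by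
    intro g c hc
    obtain ⟨x, y, hx, hy, hxy⟩ := hc
    obtain ⟨w, hw, z, hz, hd⟩ := hl.near_side hB hR hη hx hy hxy
    exact ⟨e w, mem_image_of_mem e hw, z, mem_cellOf.2 ⟨y, hy, hz⟩, hd.trans hRA⟩
  refine ⟨{ C := main H lab
            fin := Fintype.ofFinite _
            H := D.rect
            cell := fun c => cellOf E lab (c : J)
            ctr := fun c => pt (c : J)
            ctr_mem := fun c => hpt _
            ctr_inj := fun c c' h => Subtype.ext (hinj h)
            near := ?_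
            isCompact := ?_
            conn := ?_
            adj_iff := ?_
            inner := ?_
            frontier := ?_
            L_near := fun c hc => hside 0 c hc
            R_near := fun c hc => hside 1 c hc
            S_near := fun c hc => hside 2 c hc
            T_near := fun c hc => hside 3 c hc }, ?_⟩
  · intro c z hz
    obtain ⟨x, hx, hzx⟩ := mem_cellOf.1 hz
    have := hl.near x c hx hzx
    rw [mem_closedBall] at this ⊢
    linarith
  · intro c
    exact (Set.toFinite _).isCompact_biUnion fun d _ => hB.compact d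
  · intro c
    refine ⟨?_, ?_⟩
    · obtain ⟨x, hx⟩ := hl.surj c
      obtain ⟨p, hp⟩ := (hB.conn x).nonempty
      exact ⟨p, mem_cellOf.2 ⟨x, hx, hp⟩⟩
    · refine IsPreconnected.biUnion_of_reflTransGen (fun i _ => (hB.conn i).isPreconnected) ?_
      intro x hx y hy
      have h := hl.conn (Sum.inl (c : J)) x hx y hy
      refine P198S.rtg_mono ?_ h
      intro u v huv
      exact ⟨(hB.inter u v).2 (Or.inr huv.1), huv.2.1⟩
  · intro c c' hcc
    have hne : (c : J) ≠ (c' : J) := fun h => hcc (Subtype.ext h)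
    constructor
    · rintro ⟨-, x, y, hx, hy, hxy⟩
      obtain ⟨z, hz1, hz2⟩ := (hB.inter x y).2 (Or.inr hxy)
      exact ⟨z, mem_cellOf.2 ⟨x, hx, hz1⟩, mem_cellOf.2 ⟨y, hy, hz2⟩⟩
    · rintro ⟨z, hz1, hz2⟩
      obtain ⟨x, hx, hx'⟩ := mem_cellOf.1 hz1
      obtain ⟨y, hy, hy'⟩ := mem_cellOf.1 hz2
      rcases (hB.inter x y).1 ⟨z, hx', hy'⟩ with h | h
      · subst h
        rw [hx] at hy
        exact absurd (Sum.inl_injective hy) hne
      · exact ⟨hne, x, y, hx, hy, h⟩
  · intro c z hz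
    obtain ⟨x, hx, hzx⟩ := mem_cellOf.1 hz
    exact hB.mid x (hl.fr_none hx) hzx
  · intro c z hz hcz
    by_contra hcon
    have hnot : ∀ g, (c : J) ∉ side H lab g := by
      intro g hg
      apply hcon
      have h4 : ∀ g : Fin 4, g = 0 ∨ g = 1 ∨ g = 2 ∨ g = 3 := by decide
      rcases h4 g with rfl | rfl | rfl | rfl
      · exact Or.inl (Or.inl (Or.inl hg))
      · exact Or.inl (Or.inl (Or.inr hg))
      · exact Or.inl (Or.inr hg)
      · exact Or.inr hg
    obtain ⟨x, hx, hzx⟩ := mem_cellOf.1 hz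
    have hall : ∀ y, z ∈ E y → ∃ c' ∈ main H lab, lab y = Sum.inl c' := by
      intro y hy
      rcases (hB.inter x y).1 ⟨z, hzx, hy⟩ with h | h
      · subst h
        exact ⟨c, c.2, hx⟩
      · rcases hly : lab y with j | g
        · by_cases hcj : (c : J) = j
          · exact ⟨j, hcj ▸ c.2, rfl⟩
          · exact ⟨j, main_closed c.2 (Relation.ReflTransGen.single
              ⟨hcj, x, y, hx, hly, h⟩), rfl⟩
        · exact absurd ⟨y, x, hly, hx, hadj.symm h⟩ (hnot g)
    set F : Set Z := ⋃ y ∈ {y | z ∉ E y}, E y with hF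
    have hFc : IsClosed F := (Set.toFinite _).isClosed_biUnion fun d _ => hcl d
    have hU : IsOpen (e '' (Ioo 0 1 ×ˢ Ioo 0 1) ∩ Fᶜ) :=
      (he.isOpenMap _ (isOpen_Ioo.prod isOpen_Ioo)).inter hFc.isOpen_compl
    have hzU : z ∈ e '' (Ioo 0 1 ×ˢ Ioo 0 1) ∩ Fᶜ := by
      refine ⟨hB.mid x (hl.fr_none hx) hzx, ?_⟩
      intro hzF
      obtain ⟨y, hy, hzy⟩ := mem_iUnion₂.1 hzF
      exact hy hzy
    obtain ⟨w, hwU, hw⟩ := mem_closure_iff.1 hcz _ hU hzU
    apply hw
    have hw1 : w ∈ e '' (Icc 0 1 ×ˢ Icc 0 1) :=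
      image_mono (Set.prod_mono Ioo_subset_Icc_self Ioo_subset_Icc_self) hwU.1
    obtain ⟨y, hy⟩ := mem_iUnion.1 (hB.cover hw1)
    have hzy : z ∈ E y := by
      by_contra hzy
      exact hwU.2 (mem_biUnion (show y ∈ {y | z ∉ E y} from hzy) hy)
    obtain ⟨c', hc', hlc'⟩ := hall y hzy
    exact mem_iUnion.2 ⟨⟨c', hc'⟩, mem_cellOf.2 ⟨y, hlc', hy⟩⟩
  · ext z
    simp only [mem_iUnion]
    constructor
    · rintro ⟨⟨c, hc⟩, hz⟩
      exact ⟨c, hc, hz⟩
    · rintro ⟨c, hc, hz⟩
      exact ⟨⟨c, hc⟩, hz⟩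

end

end P198T
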